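import Vale.Agent.Lib.P067.Defs

/-!
# P067: chains of finite abstract complexes over `F_2`, basic tools (shared by parts B, C, D)
-/

namespace Vale.P067

open scoped Classical

variable {V W : Type*}

/-- boundary of one face -/
theorem bd_single (σ : Finset V) :
    bd (Finsupp.single σ (1 : ZMod 2)) = ∑ v ∈ σ, Finsupp.single (σ.erase v) 1 := by
  unfold bd
  rw [Finsupp.lsum_single, LinearMap.toSpanSingleton_apply, one_smul]

/-- a chain is the sum of its faces -/
theorem ch_eq_sum (z : Ch V) : z = ∑ σ ∈ z.support, Finsupp.single σ (1 : ZMod 2) := by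
  conv_lhs => rw [← Finsupp.sum_single z]
  unfold Finsupp.sum
  refine Finset.sum_congr rfl fun σ hσ => ?_
  have h1 : z σ ≠ 0 := Finsupp.mem_support_iff.1 hσ
  have h2 : ∀ a : ZMod 2, a ≠ 0 → a = 1 := by decide
  rw [h2 _ h1]

theorem bd_apply_sum (z : Ch V) :
    bd z = ∑ σ ∈ z.support, ∑ v ∈ σ, Finsupp.single (σ.erase v) (1 : ZMod 2) := by
  conv_lhs => rw [ch_eq_sum z]
  rw [map_sum]
  exact Finset.sum_congr rfl fun σ _ => bd_single σ

/-- `z + z = 0` over `F_2` -/
theorem ch_add_self (z : Ch V) : z + z = 0 := by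
  ext σ
  rw [Finsupp.add_apply, Finsupp.zero_apply]
  have h : ∀ a : ZMod 2, a + a = 0 := by decide
  exact h _

/-- linear maps which agree on faces agree -/
theorem ch_ext {M : Type*} [AddCommGroup M] [Module (ZMod 2) M] (f g : Ch V →ₗ[ZMod 2] M)
    (z : Ch V) (h : ∀ σ ∈ z.support, f (Finsupp.single σ 1) = g (Finsupp.single σ 1)) :
    f z = g z := by
  rw [ch_eq_sum z, map_sum, map_sum]
  exact Finset.sum_congr rfl h

theorem bd_bd (z : Ch V) : bd (bd z) = 0 := by
  have key : (bd.comp bd : Ch V →ₗ[ZMod 2] Ch V) z = (0 : Ch V →ₗ[ZMod 2] Ch V) z := by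
    apply ch_ext
    intro σ _
    rw [LinearMap.comp_apply, LinearMap.zero_apply, bd_single, map_sum]
    simp only [bd_single]
    rw [Finset.sum_sigma']
    refine Finset.sum_involution (fun x _ => ⟨x.2, x.1⟩) ?_ ?_ ?_ ?_
    · rintro ⟨v, w⟩ _
      simp only
      rw [Finset.erase_right_comm]
      exact ch_add_self _
    · rintro ⟨v, w⟩ hx _ he
      rw [Finset.mem_sigma, Finset.mem_erase] at hx
      simp only [Sigma.mk.injEq] at he
      exact hx.2.1 he.1
    · rintro ⟨v, w⟩ hx
      rw [Finset.mem_sigma, Finset.mem_erase] at hx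
      rw [Finset.mem_sigma, Finset.mem_erase]
      exact ⟨hx.2.2, hx.2.1.symm, hx.1⟩
    · rintro ⟨v, w⟩ _
      rfl
  simpa using key

theorem On.zero (K : Set (Finset V)) (j : ℕ) : On K j (0 : Ch V) := by
  intro σ hσ
  simp at hσ

theorem On.add {K : Set (Finset V)} {j : ℕ} {y z : Ch V} (hy : On K j y) (hz : On K j z) :
    On K j (y + z) := by
  intro σ hσ
  rcases Finset.mem_union.1 (Finsupp.support_add hσ) with h | h
  · exact hy σ h
  · exact hz σ h

theorem On.sum {ι : Type*} {K : Set (Finset V)} {j : ℕ} (s : Finset ι) (f : ι → Ch V)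
    (h : ∀ i ∈ s, On K j (f i)) : On K j (∑ i ∈ s, f i) := by
  induction s using Finset.induction_on with
  | empty => simpa using On.zero K j
  | insert a s ha ih =>
    rw [Finset.sum_insert ha]
    exact (h a (Finset.mem_insert_self a s)).add
      (ih fun i hi => h i (Finset.mem_insert_of_mem hi))

theorem On.mono {K K' : Set (Finset V)} {j : ℕ} {z : Ch V} (h : K ⊆ K') (hz : On K j z) :
    On K' j z := fun σ hσ => ⟨h (hz σ hσ).1, (hz σ hσ).2⟩

theorem On.single {K : Set (Finset V)} {σ : Finset V} (h : σ ∈ K) :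
    On K σ.card (Finsupp.single σ (1 : ZMod 2)) := by
  intro τ hτ
  have := Finset.mem_singleton.1 (Finsupp.support_single_subset hτ)
  subst this
  exact ⟨h, rfl⟩

theorem On.single' {K : Set (Finset V)} {σ : Finset V} {j : ℕ} (h : σ ∈ K) (hj : σ.card = j) :
    On K j (Finsupp.single σ (1 : ZMod 2)) := by
  subst hj
  exact On.single h

/-- the boundary of a chain on a complex closed under erasing vertices is on the complex -/
theorem On.bd {K : Set (Finset V)} (hK : ∀ σ ∈ K, ∀ v ∈ σ, σ.erase v ∈ K) {j : ℕ} {z : Ch V}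
    (hz : On K (j + 1) z) : On K j (bd z) := by
  rw [bd_apply_sum]
  refine On.sum _ _ fun σ hσ => On.sum _ _ fun v hv => ?_
  refine On.single' (hK σ (hz σ hσ).1 v hv) ?_
  rw [Finset.card_erase_of_mem hv, (hz σ hσ).2]
  rfl

private theorem image_erase_injOn (g : V → W) (σ : Finset V) (h : Set.InjOn g (σ : Set V)) (v : V)
    (hv : v ∈ σ) : (σ.image g).erase (g v) = (σ.erase v).image g := by
  ext w
  rw [Finset.mem_erase, Finset.mem_image, Finset.mem_image]
  constructor
  · rintro ⟨hw, u, hu, rfl⟩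
    refine ⟨u, Finset.mem_erase.2 ⟨?_, hu⟩, rfl⟩
    rintro rfl
    exact hw rfl
  · rintro ⟨u, hu, rfl⟩
    rw [Finset.mem_erase] at hu
    exact ⟨fun e => hu.1 (h hu.2 hv e), u, hu.2, rfl⟩

private theorem bd_single_image (g : V → W) (σ : Finset V) (h : Set.InjOn g (σ : Set V)) :
    bd (Finsupp.single (σ.image g) (1 : ZMod 2)) =
      ∑ v ∈ σ, Finsupp.single ((σ.erase v).image g) (1 : ZMod 2) := by
  rw [bd_single, Finset.sum_image h]
  exact Finset.sum_congr rfl fun v hv => by rw [image_erase_injOn g σ h v hv]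

/-- the boundary commutes with a vertex map which is injective on every face of the chain -/
theorem bd_map (g : V → W) (z : Ch V) (h : ∀ σ ∈ z.support, Set.InjOn g (σ : Set V)) :
    bd (z.mapDomain (Finset.image g)) = (bd z).mapDomain (Finset.image g) := by
  have key := ch_ext (bd.comp (Finsupp.lmapDomain (ZMod 2) (ZMod 2) (Finset.image g)))
    ((Finsupp.lmapDomain (ZMod 2) (ZMod 2) (Finset.image g)).comp bd) z ?_
  · simpa using key
  · intro σ hσ
    simp only [LinearMap.comp_apply, Finsupp.lmapDomain_apply, Finsupp.mapDomain_single]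
    rw [bd_single_image g σ (h σ hσ), bd_single, Finsupp.mapDomain_finsetSum]
    exact Finset.sum_congr rfl fun v _ => by rw [Finsupp.mapDomain_single]

/-- isomorphic complexes -/
theorem fills_image (f : V → W) (K : Set (Finset V))
    (hK : ∀ σ ∈ K, ∀ v ∈ σ, σ.erase v ∈ K)
    (hinj : Set.InjOn f {v | ∃ σ ∈ K, v ∈ σ}) (j : ℕ) (h : Fills K j) :
    Fills {σ | ∃ τ ∈ K, σ = τ.image f} j := by
  have hinjK : ∀ τ ∈ K, Set.InjOn f (τ : Set V) := fun τ hτ =>
    hinj.mono fun v (hv : v ∈ (τ : Set V)) => (⟨τ, hτ, hv⟩ : ∃ σ ∈ K, v ∈ σ)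
  have huniq : ∀ τ ∈ K, ∀ τ' ∈ K, τ.image f = τ'.image f → τ ⊆ τ' := by
    intro τ hτ τ' hτ' e v hv
    have h1 : f v ∈ τ'.image f := by
      rw [← e]
      exact Finset.mem_image_of_mem f hv
    obtain ⟨v', hv', e'⟩ := Finset.mem_image.1 h1
    have : v' = v := hinj ⟨τ', hτ', hv'⟩ ⟨τ, hτ, hv⟩ e'
    exact this ▸ hv'
  have hs : ∀ σ : Finset W, ∃ τ : Finset V, (∃ τ' ∈ K, σ = τ'.image f) →
      (τ ∈ K ∧ σ = τ.image f) := by
    intro σ
    by_cases hσ : ∃ τ' ∈ K, σ = τ'.image f
    · obtain ⟨τ, h1, h2⟩ := hσ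
      exact ⟨τ, fun _ => ⟨h1, h2⟩⟩
    · exact ⟨∅, fun h' => absurd h' hσ⟩
  choose s hs using hs
  have hsK : ∀ τ ∈ K, s (τ.image f) = τ := by
    intro τ hτ
    obtain ⟨h1, h2⟩ := hs (τ.image f) ⟨τ, hτ, rfl⟩
    exact (huniq _ h1 τ hτ h2.symm).antisymm (huniq τ hτ _ h1 h2)
  intro z hz hbz
  have hz' : On K j (z.mapDomain s) := by
    intro τ hτ
    obtain ⟨σ, hσ, rfl⟩ := Finset.mem_image.1 (Finsupp.mapDomain_support hτ)
    obtain ⟨h1, h2⟩ := hs σ (hz σ hσ).1
    refine ⟨h1, ?_⟩
    have h3 := (hz σ hσ).2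
    rw [h2, Finset.card_image_of_injOn (hinjK _ h1)] at h3
    exact h3
  have hbz' : bd (z.mapDomain s) = 0 := by
    have key := ch_ext (bd.comp (Finsupp.lmapDomain (ZMod 2) (ZMod 2) s))
      ((Finsupp.lmapDomain (ZMod 2) (ZMod 2) s).comp bd) z ?_
    · simp only [LinearMap.comp_apply, Finsupp.lmapDomain_apply, hbz] at key
      rw [key]
      exact Finsupp.mapDomain_zero
    · intro σ hσ
      obtain ⟨h1, h2⟩ := hs σ (hz σ hσ).1
      simp only [LinearMap.comp_apply, Finsupp.lmapDomain_apply, Finsupp.mapDomain_single]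
      have e : (Finsupp.single σ (1 : ZMod 2) : Ch W) = Finsupp.single ((s σ).image f) 1 := by
        rw [← h2]
      rw [e, bd_single_image f _ (hinjK _ h1), bd_single, Finsupp.mapDomain_finsetSum]
      refine Finset.sum_congr rfl fun v hv => ?_
      rw [Finsupp.mapDomain_single, hsK _ (hK _ h1 v hv)]
  obtain ⟨y, hy, hby⟩ := h _ hz' hbz'
  refine ⟨y.mapDomain (Finset.image f), ?_, ?_⟩
  · intro σ hσ
    obtain ⟨τ, hτ, rfl⟩ := Finset.mem_image.1 (Finsupp.mapDomain_support hσ)
    obtain ⟨h1, h2⟩ := hy τ hτ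
    exact ⟨⟨τ, h1, rfl⟩, by rw [Finset.card_image_of_injOn (hinjK τ h1), h2]⟩
  · rw [bd_map f y fun σ hσ => hinjK σ (hy σ hσ).1, hby, ← Finsupp.mapDomain_comp]
    conv_rhs => rw [← Finsupp.mapDomain_id (v := z)]
    refine Finsupp.mapDomain_congr fun σ hσ => ?_
    exact (hs σ (hz σ hσ).1).2.symm

/-- a complex with a cone vertex is acyclic. Proof: for a cycle `z` take
`y = ∑_{σ ∌ v0} z_σ (insert v0 σ)`; write `z = z₀ + v0 * z₁`; `bd z = 0` gives `z₁ = bd z₀`. -/
theorem fills_cone (K : Set (Finset V)) (v0 : V) (h : ∀ σ ∈ K, insert v0 σ ∈ K) (j : ℕ) :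
    Fills K j := by
  intro z hz hbz
  set C : Ch V →ₗ[ZMod 2] Ch V := Finsupp.lsum (ZMod 2) fun σ : Finset V =>
    LinearMap.toSpanSingleton (ZMod 2) (Ch V)
      (if v0 ∈ σ then 0 else Finsupp.single (insert v0 σ) (1 : ZMod 2)) with hC
  have hCs : ∀ σ : Finset V, C (Finsupp.single σ 1) =
      if v0 ∈ σ then 0 else Finsupp.single (insert v0 σ) (1 : ZMod 2) := by
    intro σ
    rw [hC, Finsupp.lsum_single, LinearMap.toSpanSingleton_apply, one_smul]
  refine ⟨C z, ?_, ?_⟩
  · rw [ch_eq_sum z, map_sum]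
    refine On.sum _ _ fun σ hσ => ?_
    rw [hCs]
    split_ifs with h0
    · exact On.zero K _
    · refine On.single' (h σ (hz σ hσ).1) ?_
      rw [Finset.card_insert_of_notMem h0, (hz σ hσ).2]
  · have key : bd (C z) + C (bd z) = z := by
      have := ch_ext (bd.comp C + C.comp bd) LinearMap.id z ?_
      · simpa using this
      · intro σ _
        simp only [LinearMap.add_apply, LinearMap.comp_apply, LinearMap.id_apply]
        rw [hCs, bd_single, map_sum]
        simp only [hCs]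
        split_ifs with h0
        · rw [map_zero, zero_add]
          rw [Finset.sum_eq_single_of_mem v0 h0]
          · rw [if_neg (Finset.notMem_erase v0 σ), Finset.insert_erase h0]
          · intro v _ hv
            rw [if_pos (Finset.mem_erase.2 ⟨hv.symm, h0⟩)]
        · rw [bd_single, Finset.sum_insert h0, Finset.erase_insert h0]
          have e : ∀ v ∈ σ, (if v0 ∈ σ.erase v then (0 : Ch V)
              else Finsupp.single (insert v0 (σ.erase v)) (1 : ZMod 2)) =
              Finsupp.single ((insert v0 σ).erase v) 1 := by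
            intro v hv
            have hne : v0 ≠ v := by
              rintro rfl
              exact h0 hv
            rw [if_neg fun h' => h0 (Finset.mem_of_mem_erase h'),
              Finset.erase_insert_of_ne hne]
          rw [Finset.sum_congr rfl e, add_assoc, ch_add_self, add_zero]
    rw [hbz, map_zero, add_zero] at key
    exact key

/-- joining all faces of a chain with the fixed set `I0` -/
noncomputable def joinCh (I0 : Finset V) : Ch V →ₗ[ZMod 2] Ch V :=
  Finsupp.lmapDomain (ZMod 2) (ZMod 2) fun τ => τ ∪ I0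

/-- boundary of a join: for `u` supported on sets disjoint from `I0` -/
theorem bd_joinCh (I0 : Finset V) (u : Ch V) (h : ∀ τ ∈ u.support, Disjoint τ I0) :
    bd (joinCh I0 u) = joinCh I0 (bd u) +
      ∑ τ ∈ u.support, ∑ v ∈ I0, Finsupp.single ((τ ∪ I0).erase v) (1 : ZMod 2) := by
  have hj : ∀ τ : Finset V, joinCh I0 (Finsupp.single τ (1 : ZMod 2)) =
      Finsupp.single (τ ∪ I0) 1 := by
    intro τ
    unfold joinCh
    rw [Finsupp.lmapDomain_apply, Finsupp.mapDomain_single]
  have e1 : bd (joinCh I0 u) = ∑ τ ∈ u.support, bd (Finsupp.single (τ ∪ I0) (1 : ZMod 2)) := by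
    conv_lhs => rw [ch_eq_sum u]
    rw [map_sum, map_sum]
    exact Finset.sum_congr rfl fun τ _ => by rw [hj]
  have e2 : joinCh I0 (bd u) = ∑ τ ∈ u.support, ∑ v ∈ τ,
      Finsupp.single (τ.erase v ∪ I0) (1 : ZMod 2) := by
    rw [bd_apply_sum, map_sum]
    refine Finset.sum_congr rfl fun τ _ => ?_
    rw [map_sum]
    exact Finset.sum_congr rfl fun v _ => hj _
  rw [e1, e2, ← Finset.sum_add_distrib]
  refine Finset.sum_congr rfl fun τ hτ => ?_
  rw [bd_single, Finset.sum_union (h τ hτ)]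
  congr 1
  refine Finset.sum_congr rfl fun v hv => ?_
  have hv0 : v ∉ I0 := Finset.disjoint_left.1 (h τ hτ) hv
  congr 1
  ext w
  rw [Finset.mem_erase, Finset.mem_union, Finset.mem_union, Finset.mem_erase]
  constructor
  · rintro ⟨h1, h2 | h2⟩
    · exact Or.inl ⟨h1, h2⟩
    · exact Or.inr h2
  · rintro (⟨h1, h2⟩ | h2)
    · exact ⟨h1, Or.inl h2⟩
    · refine ⟨?_, Or.inr h2⟩
      rintro rfl
      exact hv0 h2

/-- coefficients of a join (for a chain on sets disjoint from `I0`) -/
theorem joinCh_apply (I0 : Finset V) (u : Ch V) (h : ∀ τ ∈ u.support, Disjoint τ I0)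
    (τ : Finset V) (hτ : Disjoint τ I0) : joinCh I0 u (τ ∪ I0) = u τ := by
  unfold joinCh
  rw [Finsupp.lmapDomain_apply]
  refine Finsupp.mapDomain_apply' {σ | Disjoint σ I0} u (fun σ hσ => h σ hσ) ?_ hτ
  intro σ hσ σ' hσ' e
  have e1 : (σ ∪ I0) \ I0 = (σ' ∪ I0) \ I0 := by
    simp only at e
    rw [e]
  rw [Finset.union_sdiff_cancel_right hσ, Finset.union_sdiff_cancel_right hσ'] at e1
  exact e1

/-- the join is injective on chains supported on sets disjoint from `I0` -/
theorem joinCh_injective (I0 : Finset V) (u : Ch V) (h : ∀ τ ∈ u.support, Disjoint τ I0)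
    (h0 : joinCh I0 u = 0) : u = 0 := by
  ext τ
  by_cases hτ : τ ∈ u.support
  · rw [← joinCh_apply I0 u h τ (h τ hτ), h0]
    rfl
  · rw [Finsupp.notMem_support_iff.1 hτ]
    rfl

end Vale.P067
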