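import Mathlib

/-!
# P067: change of decidability instances
-/

namespace Vale.P067

theorem dec_insert {V : Type*} (i1 i2 : DecidableEq V) (y : V) (τ : Finset V) :
    @insert V (Finset V) (@Finset.instInsert V i1) y τ =
      @insert V (Finset V) (@Finset.instInsert V i2) y τ := by
  rw [Subsingleton.elim i1 i2]

theorem dec_image {V W : Type*} (i1 i2 : DecidableEq W) (f : V → W) (τ : Finset V) :
    @Finset.image V W i1 f τ = @Finset.image V W i2 f τ := by
  rw [Subsingleton.elim i1 i2]

theorem dec_erase {V : Type*} (i1 i2 : DecidableEq V) (τ : Finset V) (y : V) :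
    @Finset.erase V i1 τ y = @Finset.erase V i2 τ y := by
  rw [Subsingleton.elim i1 i2]

theorem dec_union {V : Type*} (i1 i2 : DecidableEq V) (σ τ : Finset V) :
    @Union.union (Finset V) (@Finset.instUnion V i1) σ τ =
      @Union.union (Finset V) (@Finset.instUnion V i2) σ τ := by
  rw [Subsingleton.elim i1 i2]

end Vale.P067
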