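import Vale.Agent.Lib.P067.UFacts

/-!
# P067: the face stabilizers of `U k n` embed into the finite quotient `G_m`, `m ≥ 2` (shared)

`Gm_inj`: `h ∈ H_s`, `h' ∈ H_{s'}`, `h⁻¹ h' ∈ N_m`. For `1 ≤ l ≤ n`: `e_l ∈ M 0`, so `h⁻¹ h' e_l - e_l ∈ M (m n)`, apply `h`
(`U_sub_mem`): `h' e_l - h e_l ∈ M (m n)`. Also `h e_l ∈ L (l+n-1)`: let `i` be the integer with `l ≤ i ≤ l+n-1`, `i ≡ s mod n`; `h` fixes `L i`
(`U_St_mod`), `e_l ∈ L i`. The same for `h'`. So `h' e_l - h e_l ∈ L (2n-1) ⊓ M (m n) = 0` as `2n - 1 ≤ m n`. `U_ext` with `a = 0`.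

`HH_Hm_emb`: if `x ∈ HH (Hm) J`, `J` nonempty, choose for every `s ∈ J` an `h_s ∈ Hs s` over `x`; they are all equal by `Gm_inj`.

`emb J0 : HH (Hs k n) J0 →* G_m`.
-/

namespace Vale.P067.PB

open scoped Classical

variable {k : Type*} [Field k] {n m : ℕ}

private theorem mem_HH_gm {S G : Type*} [Group G] (H : S → Subgroup G) (J : Finset S) (g : G) :
    g ∈ HH H J ↔ ∀ s ∈ J, g ∈ H s := by
  simp [HH, Subgroup.mem_iInf]

private theorem gm_St_L {g : E k ≃ₗ[k] E k} {i : ℤ} (hg : g ∈ St k i) {v : E k} (hv : v ∈ L k i) :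
    g v ∈ L k i := by
  have h1 : (L k i).map (g : E k →ₗ[k] E k) = L k i := hg
  rw [← h1]
  exact ⟨v, hv, rfl⟩

private theorem gm_ee_mem_L {a i : ℤ} (h : a ≤ i) : ee k a ∈ L k i := by
  intro b hb
  simp only [ee, Finsupp.single_apply]
  rw [if_neg]
  omega

private theorem gm_Hs_ee {s : Fin n} {h : U k n} (hs : h ∈ Hs k n s) (l : ℤ) :
    (h : E k ≃ₗ[k] E k) (ee k l) ∈ L k (l + n - 1) := by
  have hn : (0 : ℤ) < n := by
    have := s.2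
    omega
  have h1 := Int.emod_nonneg ((s : ℤ) - l) hn.ne'
  have h2 := Int.emod_lt_of_pos ((s : ℤ) - l) hn
  have h3 : (s : ℤ) ≡ l + ((s : ℤ) - l) % n [ZMOD n] := by
    have h4 : l + ((s : ℤ) - l) % n ≡ l + ((s : ℤ) - l) [ZMOD n] :=
      Int.ModEq.add_left l (Int.mod_modEq _ _)
    have h5 : l + ((s : ℤ) - l) = s := by ring
    rw [h5] at h4
    exact h4.symm
  have h6 : (h : E k ≃ₗ[k] E k) ∈ St k (l + ((s : ℤ) - l) % n) :=
    (U_St_mod h.2 h3).mp (Subgroup.mem_subgroupOf.mp hs)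
  have h7 : ee k l ∈ L k (l + ((s : ℤ) - l) % n) := gm_ee_mem_L (by omega)
  exact L_mono k (by omega) (gm_St_L h6 h7)

theorem Gm_inj (hm : 2 ≤ m) {s s' : Fin n} {h h' : U k n} (hs : h ∈ Hs k n s)
    (hs' : h' ∈ Hs k n s') (hq : h⁻¹ * h' ∈ Nc k n m) : h = h' := by
  have hn : 0 < n := by
    have := s.2
    omega
  refine Subtype.ext (U_ext hn 0 h.2 h'.2 fun l hl hln => ?_)
  have h1 : (h : E k ≃ₗ[k] E k) (ee k l) ∈ L k (2 * n - 1) :=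
    L_mono k (by omega) (gm_Hs_ee hs l)
  have h2 : (h' : E k ≃ₗ[k] E k) (ee k l) ∈ L k (2 * n - 1) :=
    L_mono k (by omega) (gm_Hs_ee hs' l)
  have h3 := hq (ee k l) (ee_mem_M k hl)
  have h4 := U_sub_mem h.2 _ h3
  have h5 : (h : E k ≃ₗ[k] E k) (((h⁻¹ * h' : U k n) : E k ≃ₗ[k] E k) (ee k l) - ee k l)
      = (h' : E k ≃ₗ[k] E k) (ee k l) - (h : E k ≃ₗ[k] E k) (ee k l) := by
    rw [map_sub]
    congr 1
    change (h : E k ≃ₗ[k] E k) ((h : E k ≃ₗ[k] E k)⁻¹ ((h' : E k ≃ₗ[k] E k) (ee k l))) = _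
    exact (h : E k ≃ₗ[k] E k).apply_symm_apply _
  rw [h5] at h4
  have h6 : (h' : E k ≃ₗ[k] E k) (ee k l) - (h : E k ≃ₗ[k] E k) (ee k l) = 0 := by
    refine Finsupp.ext fun b => ?_
    by_cases hb : b ≤ (m : ℤ) * n
    · exact h4 b hb
    · have h7 : (2 : ℤ) * n ≤ m * n := by
        have : (2 : ℤ) ≤ m := by exact_mod_cast hm
        have hn0 : (0 : ℤ) ≤ n := by positivity
        nlinarith
      rw [Finsupp.sub_apply, h2 b (by omega), h1 b (by omega), sub_self]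
      rfl
  exact (sub_eq_zero.mp h6).symm

private theorem gm_mk_eq_iff {h h' : U k n} :
    QuotientGroup.mk' (Nc k n m) h = QuotientGroup.mk' (Nc k n m) h' ↔ h⁻¹ * h' ∈ Nc k n m := by
  rw [QuotientGroup.mk'_apply, QuotientGroup.mk'_apply, QuotientGroup.eq]

theorem HH_Hm_emb (hm : 2 ≤ m) {J : Finset (Fin n)} (hJ : J.Nonempty) :
    HH (Hm k n m) J = (HH (Hs k n) J).map (QuotientGroup.mk' (Nc k n m)) := by
  apply le_antisymm
  · intro x hx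
    rw [mem_HH_gm] at hx
    obtain ⟨s0, hs0⟩ := hJ
    obtain ⟨h0, hh0, hx0⟩ := hx s0 hs0
    refine ⟨h0, ?_, hx0⟩
    have : h0 ∈ HH (Hs k n) J := by
      rw [mem_HH_gm]
      intro s hs
      obtain ⟨h1, hh1, hx1⟩ := hx s hs
      have h2 : h0 = h1 := Gm_inj hm hh0 hh1 (gm_mk_eq_iff.mp (hx0.trans hx1.symm))
      rw [h2]
      exact hh1
    exact this
  · rintro _ ⟨h, hh, rfl⟩
    rw [mem_HH_gm]
    intro s hs
    exact ⟨h, (mem_HH_gm _ _ _).mp hh s hs, rfl⟩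

/-- the embedding of a face stabilizer into `G_m` -/
noncomputable def emb (k : Type*) [Field k] (n m : ℕ) (J0 : Finset (Fin n)) :
    HH (Hs k n) J0 →* Gm k n m :=
  (QuotientGroup.mk' (Nc k n m)).comp (HH (Hs k n) J0).subtype

theorem emb_injective (hm : 2 ≤ m) {J0 : Finset (Fin n)} (hJ : J0.Nonempty) :
    Function.Injective (emb k n m J0) := by
  intro h h' hhh
  obtain ⟨s0, hs0⟩ := hJ
  have h1 : QuotientGroup.mk' (Nc k n m) h.1 = QuotientGroup.mk' (Nc k n m) h'.1 := hhh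
  exact Subtype.ext (Gm_inj hm ((mem_HH_gm _ _ _).mp h.2 s0 hs0)
    ((mem_HH_gm _ _ _).mp h'.2 s0 hs0) (gm_mk_eq_iff.mp h1))

theorem emb_range (hm : 2 ≤ m) {J0 : Finset (Fin n)} (hJ : J0.Nonempty) :
    (emb k n m J0).range = HH (Hm k n m) J0 := by
  rw [HH_Hm_emb hm hJ]
  ext x
  constructor
  · rintro ⟨h, rfl⟩
    exact ⟨h.1, h.2, rfl⟩
  · rintro ⟨h, hh, rfl⟩
    exact ⟨⟨h, hh⟩, rfl⟩

theorem emb_comap (hm : 2 ≤ m) {J0 : Finset (Fin n)} (hJ : J0.Nonempty) (s : Fin n) :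
    (Hm k n m s).comap (emb k n m J0) = (Hs k n s).comap (HH (Hs k n) J0).subtype := by
  ext h
  constructor
  · rintro ⟨h1, hh1, hx⟩
    obtain ⟨s0, hs0⟩ := hJ
    have hx' : QuotientGroup.mk' (Nc k n m) h.1 = QuotientGroup.mk' (Nc k n m) h1 := hx.symm
    have h2 : h.1 = h1 := Gm_inj hm ((mem_HH_gm _ _ _).mp h.2 s0 hs0) hh1 (gm_mk_eq_iff.mp hx')
    change h.1 ∈ Hs k n s
    rw [h2]
    exact hh1
  · intro hh
    exact ⟨h.1, hh, rfl⟩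

/-- face stabilizers are finite. Let `j0 ∈ J0`. `g ∈ U` fixing `L j0` (so `L (j0+n)`) is determined by the vectors
`g e_l`, `j0 < l ≤ j0 + n` (`U_ext`), which lie in the finite set `L (j0+n) ⊓ M j0` (`g e_l ∈ L (j0+n)`, `g e_l - e_l ∈ M l`). -/
theorem finite_HH [Finite k] {J0 : Finset (Fin n)} (hJ : J0.Nonempty) :
    Finite (HH (Hs k n) J0) := by
  obtain ⟨j0, hj0⟩ := hJ
  have hn : 0 < n := by
    have := j0.2
    omega
  let Φ : HH (Hs k n) J0 → (Finset.Ioc (j0 : ℤ) (j0 + n) → Finset.Ioc (j0 : ℤ) (j0 + n) → k) :=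
    fun g l b => (g.1 : E k ≃ₗ[k] E k) (ee k l.1) b.1
  have hmem : ∀ (g : HH (Hs k n) J0) (l : ℤ), (j0 : ℤ) < l → l ≤ j0 + n → ∀ b : ℤ,
      b ∉ Finset.Ioc (j0 : ℤ) (j0 + n) → (g.1 : E k ≃ₗ[k] E k) (ee k l) b = 0 := by
    intro g l hl hln b hb
    have h1 : (g.1 : E k ≃ₗ[k] E k) ∈ St k (j0 : ℤ) :=
      Subgroup.mem_subgroupOf.mp ((mem_HH_gm _ _ _).mp g.2 j0 hj0)
    have h2 : (g.1 : E k ≃ₗ[k] E k) ∈ St k ((j0 : ℤ) + n) := (U_St_add g.1.2 _).mpr h1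
    have h3 := gm_St_L h2 (gm_ee_mem_L hln)
    have h4 := U_sub_mem g.1.2 (j0 : ℤ) (ee_mem_M k hl)
    rw [Finset.mem_Ioc, not_and_or] at hb
    rcases hb with hb | hb
    · exact h4 b (by omega)
    · exact h3 b (by omega)
  refine Finite.of_injective Φ fun g g' hgg => ?_
  refine Subtype.ext (Subtype.ext (U_ext hn (j0 : ℤ) g.1.2 g'.1.2 fun l hl hln => ?_))
  refine Finsupp.ext fun b => ?_
  by_cases hb : b ∈ Finset.Ioc (j0 : ℤ) (j0 + n)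
  · exact congrFun (congrFun hgg ⟨l, Finset.mem_Ioc.mpr ⟨hl, hln⟩⟩) ⟨b, hb⟩
  · rw [hmem g l hl hln b hb, hmem g' l hl hln b hb]

end Vale.P067.PB
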