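import Vale.Agent.Lib.P067.Defs

/-! Interface statements of the parts (as `Prop`s, so that no sorry is needed here). -/

namespace Vale.P067

/-- Part A (universe 0 suffices) -/
def PartA : Prop :=
  ∀ (n : ℕ) (β : ℝ), 0 < β → ∃ lam > 0, ∀ Q : ℝ, ∃ ε > 0, ∀ (G : Type) [Group G] [Finite G]
    (H : Fin n → Subgroup G),
    (∀ s, (Nat.card (H s) : ℝ) ≤ Q) → Spec H lam →
    (∀ J0 : Finset (Fin n), J0.Nonempty → ∀ i, J0.card + i + 2 ≤ n → LinkExp H J0 i β) →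
    ∀ j, j + 3 ≤ n → Van H j → Exp H j ε

/-- Part S -/
def PartS : Prop :=
  ∀ n : ℕ, 3 ≤ n → ∀ lam : ℝ, 0 < lam → ∃ q0 : ℕ, ∀ (k : Type) [Field k] [Fintype k],
    q0 ≤ Fintype.card k → (⨆ s, Hs k n s = ⊤) → ∀ m : ℕ, 2 ≤ m → Spec (Hm k n m) lam

/-- Part B -/
def PartB : Prop :=
  ∀ n : ℕ, ∃ β : ℝ, 0 < β ∧ ∃ q0 : ℕ, ∀ (k : Type) [Field k] [Fintype k],
    q0 ≤ Fintype.card k → ∀ m : ℕ, 2 ≤ m → ∀ J0 : Finset (Fin n), J0.Nonempty →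
    ∀ i, J0.card + i + 2 ≤ n → LinkExp (Hm k n m) J0 i β

/-- Part C -/
def PartC : Prop :=
  ∀ n : ℕ, ∃ q0 : ℕ, ∀ (k : Type) [Field k] [Fintype k], q0 ≤ Fintype.card k →
    ∀ j, j + 3 ≤ n → Van (Hs k n) j

/-- Part D -/
def PartD : Prop :=
  ∀ n : ℕ, ∃ q0 : ℕ, ∀ (k : Type) [Field k] [Fintype k], q0 ≤ Fintype.card k →
    Odd (Fintype.card k) → ∀ m : ℕ, 2 ≤ m → ∀ j, 2 * j + 3 ≤ n → Van (Hm k n m) j

end Vale.P067
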