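import Vale.Agent.Lib.P067.FlDefs

/-!
# P067: basic facts on `Fl`, `L`, `M` (shared by parts B and C)
-/

namespace Vale.P067

open scoped Classical

variable {k : Type*} [Field k]

theorem Fl_mono {a b : ℤ} {T : Finset ℤ} {σ τ : Finset (ℤ × Submodule k (E k))}
    (h : σ ∈ Fl k a b T) (hs : τ ⊆ σ) : τ ∈ Fl k a b T :=
  ⟨fun v hv => h.1 v (hs hv), fun v hv w hw => h.2 v (hs hv) w (hs hw)⟩

theorem Fl_erase {a b : ℤ} {T : Finset ℤ} :
    ∀ σ ∈ Fl k a b T, ∀ v ∈ σ, σ.erase v ∈ Fl k a b T :=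
  fun _ h _ _ => Fl_mono h (Finset.erase_subset _ _)

theorem Fl_empty (a b : ℤ) (T : Finset ℤ) : (∅ : Finset (ℤ × Submodule k (E k))) ∈ Fl k a b T :=
  ⟨by simp, by simp⟩

theorem Fl_inj {a b : ℤ} {T : Finset ℤ} {σ : Finset (ℤ × Submodule k (E k))}
    (h : σ ∈ Fl k a b T) {v w : ℤ × Submodule k (E k)} (hv : v ∈ σ) (hw : w ∈ σ)
    (hvw : v.1 = w.1) : v = w :=
  Prod.ext hvw (le_antisymm (h.2 v hv w hw hvw.le) (h.2 w hw v hv hvw.ge))

theorem mem_L {i : ℤ} {v : E k} : v ∈ L k i ↔ ∀ b, i < b → v b = 0 := Iff.rfl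

theorem mem_M {i : ℤ} {v : E k} : v ∈ M k i ↔ ∀ b, b ≤ i → v b = 0 := Iff.rfl

theorem isCompl_L_M (i : ℤ) : IsCompl (L k i) (M k i) := by
  constructor
  · rw [Submodule.disjoint_def]
    intro v hv hw
    ext b
    rcases lt_or_ge i b with h | h
    · exact hv b h
    · exact hw b h
  · rw [codisjoint_iff, eq_top_iff]
    intro v _
    have h : v = Finsupp.filter (fun b => b ≤ i) v + Finsupp.filter (fun b => ¬ b ≤ i) v :=
      (Finsupp.filter_add_filter_not v _).symm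
    rw [h]
    refine Submodule.add_mem_sup ?_ ?_
    · intro b hb
      exact Finsupp.filter_apply_neg _ _ (by omega)
    · intro b hb
      exact Finsupp.filter_apply_neg _ _ (by omega)

theorem ee_mem_L {i j : ℤ} (h : i ≤ j) : ee k i ∈ L k j := by
  intro b hb
  exact Finsupp.single_eq_of_ne (by omega)

/-- the vertex `(i, L i)` is a face -/
theorem Fl_std {a b : ℤ} {T : Finset ℤ} {i : ℤ} (hi : i ∈ T) :
    ({(i, L k i)} : Finset (ℤ × Submodule k (E k))) ∈ Fl k a b T := by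
  refine ⟨?_, ?_⟩
  · intro v hv
    rw [Finset.mem_singleton] at hv
    subst hv
    exact ⟨hi, isCompl_L_M i, fun l _ _ _ => ⟨fun h => L_mono k h, fun h => L_mono k h⟩⟩
  · intro v hv w hw _
    rw [Finset.mem_singleton] at hv hw
    subst hv
    subst hw
    exact le_rfl

end Vale.P067
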