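import Vale.Agent.Lib.P067.Morse

/-!
# P067: Morse filtrations (shared by parts C and D2)
-/

namespace Vale.P067

open scoped Classical

variable {V : Type*}

private theorem mem_of_subset (K : Set (Finset V)) (hK : ∀ σ ∈ K, ∀ v ∈ σ, σ.erase v ∈ K)
    (σ : Finset V) (hσ : σ ∈ K) (σ' : Finset V) (h : σ' ⊆ σ) : σ' ∈ K := by
  induction hn : (σ \ σ').card generalizing σ with
  | zero =>
    rw [Finset.card_eq_zero, Finset.sdiff_eq_empty_iff_subset] at hn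
    rw [← Finset.Subset.antisymm hn h]
    exact hσ
  | succ n ih =>
    obtain ⟨v, hv⟩ : (σ \ σ').Nonempty := by
      rw [← Finset.card_pos]; omega
    rw [Finset.mem_sdiff] at hv
    refine ih (σ.erase v) (hK σ hσ v hv.1) ?_ ?_
    · intro w hw
      rw [Finset.mem_erase]
      refine ⟨?_, h hw⟩
      rintro rfl
      exact hv.2 hw
    · have : σ.erase v \ σ' = (σ \ σ').erase v := by
        ext w
        simp only [Finset.mem_sdiff, Finset.mem_erase]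
        tauto
      rw [this, Finset.card_erase_of_mem (Finset.mem_sdiff.2 hv)]
      omega

private theorem bd_mem (K : Set (Finset V)) (hK : ∀ σ ∈ K, ∀ v ∈ σ, σ.erase v ∈ K) (j : ℕ)
    (z : Ch V) (hz : On K j z) (σ : Finset V) (hσ : σ ∈ (bd z).support) : σ ∈ K := by
  cases j with
  | zero =>
    exfalso
    have h0 : bd z = 0 := by
      rw [bd_apply_sum]
      apply Finset.sum_eq_zero
      intro τ hτ
      have h1 := (hz τ hτ).2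
      rw [Finset.card_eq_zero] at h1
      rw [h1, Finset.sum_empty]
    rw [h0] at hσ
    simp at hσ
  | succ j =>
    exact (On.bd hK hz σ hσ).1

private theorem MSF_aux (K : Set (Finset V)) (hK : ∀ σ ∈ K, ∀ v ∈ σ, σ.erase v ∈ K)
    (ℓ : Finset V → ℕ)
    (hmono : ∀ σ ∈ K, ∀ v ∈ σ, ℓ (σ.erase v) ≤ ℓ σ) (I : Finset V → Finset V)
    (sub : ∀ σ ∈ K, 0 < ℓ σ → I σ ⊆ σ)
    (stab : ∀ σ ∈ K, 0 < ℓ σ → ∀ σ', I σ ⊆ σ' → σ' ⊆ σ → ℓ σ' = ℓ σ ∧ I σ' = I σ)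
    (down : ∀ σ ∈ K, 0 < ℓ σ → ∀ v ∈ I σ, ℓ (σ.erase v) < ℓ σ) (j : ℕ)
    (hloc : ∀ σ ∈ K, 0 < ℓ σ → (I σ).card ≤ j →
      Fills {τ | Disjoint τ (I σ) ∧ τ ∪ I σ ∈ K ∧ ℓ (τ ∪ I σ) = ℓ σ ∧ I (τ ∪ I σ) = I σ}
        (j - (I σ).card)) (r : ℕ) :
    ∀ (z : Ch V), On {σ | σ ∈ K ∧ ℓ σ ≤ r} j z → (∀ σ ∈ (bd z).support, ℓ σ = 0) →
    ∃ u : Ch V, On K (j + 1) u ∧ On {σ | σ ∈ K ∧ ℓ σ = 0} j (z + bd u) := by
  induction r with
  | zero =>
    intro z hz _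
    refine ⟨0, On.zero K (j + 1), ?_⟩
    rw [map_zero, add_zero]
    refine On.mono ?_ hz
    rintro σ ⟨h1, h2⟩
    exact ⟨h1, by omega⟩
  | succ r ih =>
    intro z hz hbd
    have hzK : On K j z := On.mono (fun σ h => h.1) hz
    set A : Set (Finset V) := {σ | σ ∈ K ∧ ℓ σ ≤ r} with hA
    set N : Set (Finset V) := {σ | σ ∈ K ∧ ℓ σ = r + 1} with hN
    have hMD : MorseData A N I := by
      refine ⟨?_, ?_, ?_, ?_, ?_⟩
      · rw [Set.disjoint_left]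
        rintro σ ⟨_, h1⟩ ⟨_, h2⟩
        omega
      · rintro σ ⟨h1, h2⟩
        exact sub σ h1 (by omega)
      · rintro σ ⟨h1, h2⟩ σ' h3 h4
        have h5 := stab σ h1 (by omega) σ' h3 h4
        exact ⟨⟨mem_of_subset K hK σ h1 σ' h4, by omega⟩, h5.2⟩
      · rintro σ ⟨h1, h2⟩ v hv
        have h3 := down σ h1 (by omega) v hv
        exact ⟨hK σ h1 v (sub σ h1 (by omega) hv), by omega⟩
      · rintro σ ⟨h1, h2⟩ v hv
        exact ⟨hK σ h1 v hv, (hmono σ h1 v hv).trans h2⟩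
    have hloc' : ∀ σ ∈ N, (I σ).card ≤ j → Fills (Loc N I (I σ)) (j - (I σ).card) := by
      rintro σ ⟨h1, h2⟩ h3
      have h4 := hloc σ h1 (by omega) h3
      have h5 : Loc N I (I σ) =
          {τ | Disjoint τ (I σ) ∧ τ ∪ I σ ∈ K ∧ ℓ (τ ∪ I σ) = ℓ σ ∧ I (τ ∪ I σ) = I σ} := by
        ext τ
        simp only [Loc, hN, Set.mem_ofPred_eq, h2]
        tauto
      rw [h5]
      exact h4
    have hz' : On (A ∪ N) j z := by
      refine On.mono ?_ hz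
      rintro σ ⟨h1, h2⟩
      by_cases h3 : ℓ σ ≤ r
      · exact Or.inl ⟨h1, h3⟩
      · exact Or.inr ⟨h1, by omega⟩
    have hbd' : ∀ σ ∈ (bd z).support, σ ∈ A := by
      intro σ hσ
      exact ⟨bd_mem K hK j z hzK σ hσ, by rw [hbd σ hσ]; omega⟩
    obtain ⟨u0, hu0, hu1⟩ := MS A N I hMD j hloc' z hz' hbd'
    have hbd2 : bd (z + bd u0) = bd z := by
      rw [map_add, bd_bd, add_zero]
    obtain ⟨u1, hu2, hu3⟩ := ih (z + bd u0) hu1 (by rw [hbd2]; exact hbd)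
    refine ⟨u0 + u1, ?_, ?_⟩
    · refine On.add (On.mono ?_ hu0) hu2
      rintro σ (h | h)
      · exact h.1
      · exact h.1
    · rw [map_add, ← add_assoc]
      exact hu3

/-- Morse filtration: a complex `K` with a monotone level function `ℓ`; every chain with `j`-element
faces whose boundary has level `0` can be pushed down to level `0`.
(Induction on the maximal level of a face of `z`, `MS` with `A = {σ ∈ K | ℓ σ < r}`,
`N = {σ ∈ K | ℓ σ = r}`.) -/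
theorem MSF (K : Set (Finset V)) (hK : ∀ σ ∈ K, ∀ v ∈ σ, σ.erase v ∈ K) (ℓ : Finset V → ℕ)
    (hmono : ∀ σ ∈ K, ∀ v ∈ σ, ℓ (σ.erase v) ≤ ℓ σ) (I : Finset V → Finset V)
    (sub : ∀ σ ∈ K, 0 < ℓ σ → I σ ⊆ σ)
    (stab : ∀ σ ∈ K, 0 < ℓ σ → ∀ σ', I σ ⊆ σ' → σ' ⊆ σ → ℓ σ' = ℓ σ ∧ I σ' = I σ)
    (down : ∀ σ ∈ K, 0 < ℓ σ → ∀ v ∈ I σ, ℓ (σ.erase v) < ℓ σ) (j : ℕ)
    (hloc : ∀ σ ∈ K, 0 < ℓ σ → (I σ).card ≤ j →
      Fills {τ | Disjoint τ (I σ) ∧ τ ∪ I σ ∈ K ∧ ℓ (τ ∪ I σ) = ℓ σ ∧ I (τ ∪ I σ) = I σ}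
        (j - (I σ).card))
    (z : Ch V) (hz : On K j z) (hbd : ∀ σ ∈ (bd z).support, ℓ σ = 0) :
    ∃ u : Ch V, On K (j + 1) u ∧ On {σ | σ ∈ K ∧ ℓ σ = 0} j (z + bd u) := by
  refine MSF_aux K hK ℓ hmono I sub stab down j hloc (z.support.sup ℓ) z ?_ hbd
  intro σ hσ
  exact ⟨⟨(hz σ hσ).1, Finset.le_sup hσ⟩, (hz σ hσ).2⟩

end Vale.P067
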