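import Vale.Agent.Lib.P067.UMk

/-!
# P067: partial opposite flags extend to elements of `U` (C8; used by parts B and C)

Proof.  Let `J = (types of σ) ∪ ([a,b] ∖ T)`; `a, b ∈ J`. For `i ∈ J` put `W i = L i` if `i ∉ T` and `W i = W` if `(i,W) ∈ σ`
(unique by `Fl_inj`).  By definition of `Fl` and `L_mono`, `isCompl_L_M`: `IsCompl (W i) (M i)` and `W i ≤ W j` for `i ≤ j` in `J`.
For `l ∈ (a,b]` let `j l` be the least element of `J` with `l ≤ j l` and write `e_l = w l + m`, `w l ∈ W (j l)`, `m ∈ M (j l)`.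
So `w l - e_l ∈ M (j l) ≤ M l` and `w l ∈ W (j l) ≤ L b`.  `exists_U_of_values` gives `g ∈ U k n` with `g e_l = w l` for `l ∈ (a,b]`.
* `g (L a) ≤ L a`: for `l ≤ a` take `c < 0`, `l' = l - c n ∈ (a,b]`, `g e_l = sh (c n) (w l') ∈ sh (c n) (L b) = L (b + c n) ≤ L a`.
* hence `g (L i) ≤ W i` for `i ∈ J` (basis vectors `e_l`, `l ≤ a`, or `a < l ≤ i`, then `j l ≤ i`).
* `W i ≤ g (L i)`: `w ∈ W i`, `w = g u`, `u = u' + u''`, `u' ∈ L i`, `u'' ∈ M i`; `g u'' = w - g u' ∈ W i ⊓ M i = 0`, so `u'' = 0`.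
-/

namespace Vale.P067

open scoped Classical

variable {k : Type*} [Field k] {n : ℕ}

private theorem EL {i j : ℤ} (h : i ≤ j) : L k i ≤ L k j :=
  fun _ hv b hb => hv b (h.trans_lt hb)

private theorem EM {i j : ℤ} (h : i ≤ j) : M k j ≤ M k i := fun _ hv b hb => hv b (hb.trans h)

theorem exists_ext (hn : 0 < n) {a b : ℤ} (hab : b = a + n) {T : Finset ℤ}
    (hT : ∀ i ∈ T, a < i ∧ i < b) {σ : Finset (ℤ × Submodule k (E k))} (hσ : σ ∈ Fl k a b T) :
    ∃ g ∈ U k n, (∀ i, a ≤ i → i ≤ b → i ∉ T → (L k i).map (g : E k →ₗ[k] E k) = L k i) ∧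
      ∀ v ∈ σ, (L k v.1).map (g : E k →ₗ[k] E k) = v.2 := by
  subst hab
  have hn' : (0 : ℤ) < n := by exact_mod_cast hn
  have hWex : ∀ i : ℤ, ∃ W : Submodule k (E k), (∀ W', (i, W') ∈ σ → W = W') ∧
      ((∀ W', (i, W') ∉ σ) → W = L k i) := by
    intro i
    by_cases h : ∃ W', (i, W') ∈ σ
    · obtain ⟨W', hW'⟩ := h
      refine ⟨W', fun W'' hW'' => ?_, fun h => absurd hW' (h W')⟩
      exact congrArg Prod.snd (Fl_inj hσ hW' hW'' rfl)
    · push Not at h
      exact ⟨L k i, fun W' hW' => absurd hW' (h W'), fun _ => rfl⟩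
  choose W hW1 hW2 using hWex
  have hWT : ∀ i, i ∉ T → W i = L k i := fun i hi =>
    hW2 i fun W' hW' => hi (hσ.1 _ hW').1
  set InJ : ℤ → Prop := fun i => a ≤ i ∧ i ≤ a + n ∧ (i ∉ T ∨ (i, W i) ∈ σ) with hInJ
  have haT : a ∉ T := fun h => lt_irrefl _ (hT a h).1
  have hbT : a + n ∉ T := fun h => lt_irrefl _ (hT _ h).2
  have haJ : InJ a := ⟨le_rfl, by omega, Or.inl haT⟩
  have hbJ : InJ (a + n) := ⟨by omega, le_rfl, Or.inl hbT⟩
  have P1 : ∀ i, InJ i → IsCompl (W i) (M k i) := by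
    rintro i ⟨_, _, h | h⟩
    · rw [hWT i h]
      exact isCompl_L_M i
    · exact (hσ.1 _ h).2.1
  have P2 : ∀ i j, InJ i → InJ j → i ≤ j → W i ≤ W j := by
    rintro i j ⟨hi1, hi2, hi3⟩ ⟨hj1, hj2, hj3⟩ hij
    rcases hi3 with hi | hi
    · rw [hWT i hi]
      rcases hj3 with hj | hj
      · rw [hWT j hj]
        exact EL hij
      · exact ((hσ.1 _ hj).2.2 i hi1 hi2 hi).1 hij
    · rcases hj3 with hj | hj
      · rw [hWT j hj]
        exact ((hσ.1 _ hi).2.2 j hj1 hj2 hj).2 hij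
      · exact hσ.2 _ hi _ hj hij
  have hwex : ∀ l : ℤ, ∃ w : E k, a < l → l ≤ a + n → ∃ j, InJ j ∧ l ≤ j ∧
      (∀ i, InJ i → l ≤ i → j ≤ i) ∧ w ∈ W j ∧ w - ee k l ∈ M k j := by
    intro l
    by_cases hl : a < l ∧ l ≤ a + n
    · obtain ⟨j, ⟨hj1, hj2⟩, hj3⟩ := Int.exists_least_of_bdd (P := fun j => InJ j ∧ l ≤ j)
        ⟨l, fun z hz => hz.2⟩ ⟨a + n, hbJ, hl.2⟩
      have h1 : ee k l ∈ W j ⊔ M k j := by
        rw [(P1 j hj1).sup_eq_top]
        exact Submodule.mem_top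
      obtain ⟨x, hx, y, hy, hxy⟩ := Submodule.mem_sup.1 h1
      refine ⟨x, fun _ _ => ⟨j, hj1, hj2, fun i hi hli => hj3 i ⟨hi, hli⟩, hx, ?_⟩⟩
      rw [← hxy, sub_add_cancel_left]
      exact (M k j).neg_mem hy
    · exact ⟨0, fun h1 h2 => absurd ⟨h1, h2⟩ hl⟩
  choose w hw using hwex
  obtain ⟨g, hgU, hg⟩ := exists_U_of_values hn a w (by
    intro l hl1 hl2
    obtain ⟨j, hj1, hj2, _, hj4, hj5⟩ := hw l hl1 hl2
    refine ⟨EM hj2 hj5, ?_⟩
    have h1 := P2 j (a + n) hj1 hbJ hj1.2.1 hj4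
    rwa [hWT _ hbT] at h1)
  have hcomm : ∀ v, g (sh k n v) = sh k n (g v) := hgU.1
  -- values on the basis vectors
  have hA : ∀ m : ℕ, ∀ l, a - m * n < l → l ≤ a + n →
      g (ee k l) ∈ L k (a + n) ∧ (l ≤ a → g (ee k l) ∈ L k a) := by
    intro m
    induction m with
    | zero =>
      intro l hl1 hl2
      have hl1' : a < l := by simpa using hl1
      refine ⟨?_, fun h => absurd hl1' (not_lt.2 h)⟩
      obtain ⟨j, hj1, hj2, _, hj4, hj5⟩ := hw l hl1' hl2
      rw [hg l hl1' hl2]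
      have h1 := P2 j (a + n) hj1 hbJ hj1.2.1 hj4
      rwa [hWT _ hbT] at h1
    | succ m ih =>
      intro l hl1 hl2
      by_cases hla : a < l
      · refine ⟨?_, fun h => absurd hla (not_lt.2 h)⟩
        obtain ⟨j, hj1, hj2, _, hj4, hj5⟩ := hw l hla hl2
        rw [hg l hla hl2]
        have h1 := P2 j (a + n) hj1 hbJ hj1.2.1 hj4
        rwa [hWT _ hbT] at h1
      · have hla' : l ≤ a := not_lt.1 hla
        have h1 : a - m * n < l + n := by
          push_cast at hl1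
          linarith
        have h2 := (ih (l + n) h1 (by linarith)).1
        have h3 : ee k (l + n) = sh k n (ee k l) := by
          ext x
          rw [sh_apply]
          by_cases hx : x = l + n
          · subst hx
            rw [add_sub_cancel_right, Finsupp.single_eq_same, Finsupp.single_eq_same]
          · rw [Finsupp.single_eq_of_ne hx, Finsupp.single_eq_of_ne (by omega)]
        rw [h3, hcomm] at h2
        have h4 : g (ee k l) ∈ L k a := by
          intro x hx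
          have h5 := h2 (x + n) (by linarith)
          rwa [sh_apply, add_sub_cancel_right] at h5
        exact ⟨EL (by omega) h4, fun _ => h4⟩
  have hA' : ∀ l, l ≤ a → g (ee k l) ∈ L k a := by
    intro l hl
    refine (hA (a - l + 1).toNat l ?_ (by linarith)).2 hl
    have h1 : ((a - l + 1).toNat : ℤ) = a - l + 1 := Int.toNat_of_nonneg (by linarith)
    rw [h1]
    nlinarith
  -- a submodule which contains the images of the basis vectors contains the image of `L i`
  have hspan : ∀ (i : ℤ) (X : Submodule k (E k)), (∀ l, l ≤ i → g (ee k l) ∈ X) →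
      ∀ v ∈ L k i, g v ∈ X := by
    intro i X hX v hv
    have h1 : v = ∑ l ∈ v.support, v l • ee k l := by
      conv_lhs => rw [← Finsupp.sum_single v]
      rw [Finsupp.sum]
      refine Finset.sum_congr rfl fun l _ => ?_
      rw [Finsupp.smul_single, smul_eq_mul, mul_one]
    rw [h1, map_sum]
    refine Submodule.sum_mem _ fun l hl => ?_
    rw [map_smul]
    refine X.smul_mem _ (hX l ?_)
    by_contra hcon
    exact (Finsupp.mem_support_iff.1 hl) (hv l (not_le.1 hcon))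
  have hB : ∀ i, InJ i → ∀ v ∈ L k i, g v ∈ W i := by
    intro i hi
    refine hspan i (W i) fun l hl => ?_
    by_cases hla : l ≤ a
    · have h1 := hA' l hla
      rw [← hWT a haT] at h1
      exact P2 a i haJ hi hi.1 h1
    · have hla' : a < l := not_le.1 hla
      obtain ⟨j, hj1, hj2, hj3, hj4, hj5⟩ := hw l hla' (hl.trans hi.2.1)
      rw [hg l hla' (hl.trans hi.2.1)]
      exact P2 j i hj1 hi (hj3 i hi hl) hj4
  have hmap : ∀ i, InJ i → (L k i).map (g : E k →ₗ[k] E k) = W i := by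
    intro i hi
    apply le_antisymm
    · rintro _ ⟨v, hv, rfl⟩
      exact hB i hi v hv
    · intro x hx
      have h1 : g.symm x ∈ L k i ⊔ M k i := by
        rw [(isCompl_L_M i).sup_eq_top]
        exact Submodule.mem_top
      obtain ⟨u', hu', u'', hu'', hu⟩ := Submodule.mem_sup.1 h1
      have h2 : g u' + g u'' = x := by
        rw [← map_add, hu]
        exact g.apply_symm_apply x
      have h3 : g u'' ∈ W i := by
        have h4 : g u'' = x - g u' := by rw [← h2, add_sub_cancel_left]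
        rw [h4]
        exact (W i).sub_mem hx (hB i hi u' hu')
      have h4 : g u'' ∈ M k i := U_sub_mem hgU i hu''
      have h5 : g u'' = 0 := Submodule.disjoint_def.1 (P1 i hi).disjoint _ h3 h4
      rw [h5, add_zero] at h2
      exact ⟨u', hu', h2⟩
  refine ⟨g, hgU, fun i hi1 hi2 hi3 => ?_, fun v hv => ?_⟩
  · rw [hmap i ⟨hi1, hi2, Or.inl hi3⟩, hWT i hi3]
  · have h1 : W v.1 = v.2 := hW1 v.1 v.2 hv
    have h2 := hT v.1 (hσ.1 v hv).1
    rw [hmap v.1 ⟨h2.1.le, h2.2.le, Or.inr (by rw [h1]; exact hv)⟩, h1]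

end Vale.P067
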