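import Vale.Agent.Lib.P067.FlFacts

/-!
# P067: basic facts on the group `U k n` (shared by parts B and C)

All proofs are short.  `g ∈ U k n` is unitriangular: `g (e_a) ∈ e_a + M a`, the same for `g⁻¹`, and `g`
commutes with the shift `sh k n`.

* `U_sub_mem`: for `v ∈ M i`: `g v ∈ M i` because `M i` is spanned by the `e_b`, `b > i`
  (write `v` as `Finsupp.sum`, `g e_b ∈ e_b + M b ⊆ M i`).
* `U_map_M` from `U_sub_mem` for `g` and `g⁻¹`.
* `L_add`: `sh k l` maps `L i` onto `L (i+l)` (`(sh k l v) b = v (b - l)`).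
* `U_St_add`: `g (L (i+n)) = g (sh (L i)) = sh (g (L i))`.
* `U_St_mod`: iterate `U_St_add`.
* `U_ext`: two elements of `U k n` which agree on `e_l`, `a < l ≤ a + n`, are equal.
-/

namespace Vale.P067

open scoped Classical

variable {k : Type*} [Field k] {n : ℕ}

theorem sh_apply (l : ℤ) (v : E k) (b : ℤ) : sh k l v b = v (b - l) := by
  change (Finsupp.equivMapDomain (Equiv.addRight l) v) b = v (b - l)
  rw [Finsupp.equivMapDomain_apply]
  rfl

theorem U_sub_mem {g : E k ≃ₗ[k] E k} (hg : g ∈ U k n) (i : ℤ) {v : E k} (hv : v ∈ M k i) :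
    g v ∈ M k i :=
  map_M_of_unitri k g hg.2.1 i v hv

theorem U_map_M {g : E k ≃ₗ[k] E k} (hg : g ∈ U k n) (i : ℤ) :
    (M k i).map (g : E k →ₗ[k] E k) = M k i := by
  apply le_antisymm
  · rintro _ ⟨v, hv, rfl⟩
    exact U_sub_mem hg i hv
  · intro v hv
    exact ⟨g⁻¹ v, U_sub_mem ((U k n).inv_mem hg) i hv, g.apply_symm_apply v⟩

theorem L_add (i l : ℤ) : (L k i).map (sh k l : E k →ₗ[k] E k) = L k (i + l) := by
  ext v
  constructor
  · rintro ⟨w, hw, rfl⟩ b hb
    change sh k l w b = 0
    rw [sh_apply]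
    exact hw _ (by omega)
  · intro hv
    refine ⟨(sh k l).symm v, ?_, (sh k l).apply_symm_apply v⟩
    intro b hb
    have h1 : sh k l ((sh k l).symm v) (b + l) = v (b + l) := by
      rw [LinearEquiv.apply_symm_apply]
    rw [sh_apply, add_sub_cancel_right] at h1
    rw [h1]
    exact hv _ (by omega)

theorem M_add (i l : ℤ) : (M k i).map (sh k l : E k →ₗ[k] E k) = M k (i + l) := by
  ext v
  constructor
  · rintro ⟨w, hw, rfl⟩ b hb
    change sh k l w b = 0
    rw [sh_apply]
    exact hw _ (by omega)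
  · intro hv
    refine ⟨(sh k l).symm v, ?_, (sh k l).apply_symm_apply v⟩
    intro b hb
    have h1 : sh k l ((sh k l).symm v) (b + l) = v (b + l) := by
      rw [LinearEquiv.apply_symm_apply]
    rw [sh_apply, add_sub_cancel_right] at h1
    rw [h1]
    exact hv _ (by omega)

theorem U_map_add {g : E k ≃ₗ[k] E k} (hg : g ∈ U k n) (i : ℤ) :
    (L k (i + n)).map (g : E k →ₗ[k] E k) =
      ((L k i).map (g : E k →ₗ[k] E k)).map (sh k n : E k →ₗ[k] E k) := by
  rw [← L_add, ← Submodule.map_comp, ← Submodule.map_comp]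
  congr 1
  refine LinearMap.ext fun v => ?_
  exact hg.1 v

theorem U_St_add {g : E k ≃ₗ[k] E k} (hg : g ∈ U k n) (i : ℤ) :
    g ∈ St k (i + n) ↔ g ∈ St k i := by
  change (L k (i + n)).map (g : E k →ₗ[k] E k) = L k (i + n) ↔
    (L k i).map (g : E k →ₗ[k] E k) = L k i
  rw [U_map_add hg, ← L_add]
  constructor
  · intro h
    exact Submodule.map_injective_of_injective (sh k n).injective h
  · intro h
    rw [h]

private theorem U_St_add_mul {g : E k ≃ₗ[k] E k} (hg : g ∈ U k n) (i : ℤ) (c : ℕ) :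
    g ∈ St k (i + n * c) ↔ g ∈ St k i := by
  induction c with
  | zero => simp
  | succ c ih =>
    rw [← ih, ← U_St_add hg (i + n * c)]
    have h : i + (n : ℤ) * ((c + 1 : ℕ) : ℤ) = i + n * c + n := by
      push_cast
      ring
    rw [h]

theorem U_St_mod {g : E k ≃ₗ[k] E k} (hg : g ∈ U k n) {i j : ℤ} (hij : i ≡ j [ZMOD n]) :
    g ∈ St k i ↔ g ∈ St k j := by
  obtain ⟨c, hc⟩ := hij.dvd
  rcases le_total 0 c with h | h
  · obtain ⟨m, rfl⟩ := Int.eq_ofNat_of_zero_le h
    have h1 : j = i + n * (m : ℤ) := by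
      have h2 : j - i = (n : ℤ) * (m : ℤ) := hc
      linarith
    rw [h1]
    exact (U_St_add_mul hg i m).symm
  · obtain ⟨m, hm⟩ := Int.eq_ofNat_of_zero_le (neg_nonneg.2 h)
    have h1 : i = j + n * (m : ℤ) := by
      have h2 : (m : ℤ) = -c := hm.symm
      rw [h2]
      linarith
    rw [h1]
    exact U_St_add_mul hg j m

private theorem U_sh_mul {g : E k ≃ₗ[k] E k} (hg : g ∈ U k n) (c : ℕ) (v : E k) :
    g (sh k (n * c) v) = sh k (n * c) (g v) := by
  induction c with
  | zero =>
    have h0 : ∀ w : E k, sh k ((n : ℤ) * ((0 : ℕ) : ℤ)) w = w := by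
      intro w
      ext b
      rw [sh_apply]
      simp
    rw [h0, h0]
  | succ c ih =>
    have h0 : ∀ w : E k, sh k ((n : ℤ) * ((c + 1 : ℕ) : ℤ)) w = sh k n (sh k (n * c) w) := by
      intro w
      ext b
      rw [sh_apply, sh_apply, sh_apply]
      congr 1
      push_cast
      ring
    rw [h0, h0, hg.1, ih]

private theorem sh_ee (l b : ℤ) : sh k l (ee k b) = ee k (b + l) := by
  ext c
  rw [sh_apply]
  simp only [ee, Finsupp.single_apply]
  by_cases h : b = c - l
  · rw [if_pos h, if_pos (by omega)]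
  · rw [if_neg h, if_neg (by omega)]

private theorem lin_ext {g h : E k ≃ₗ[k] E k} (H : ∀ l, g (ee k l) = h (ee k l)) : g = h := by
  apply LinearEquiv.toLinearMap_injective
  refine Finsupp.lhom_ext' fun l => ?_
  refine LinearMap.ext_ring ?_
  exact H l

theorem U_ext (hn : 0 < n) (a : ℤ) {g h : E k ≃ₗ[k] E k} (hg : g ∈ U k n) (hh : h ∈ U k n)
    (hgh : ∀ l, a < l → l ≤ a + n → g (ee k l) = h (ee k l)) : g = h := by
  apply lin_ext
  have key : ∀ (c : ℕ) (l : ℤ), g (ee k l) = h (ee k l) →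
      g (ee k (l + n * c)) = h (ee k (l + n * c)) := by
    intro c l hl
    rw [← sh_ee, U_sh_mul hg, U_sh_mul hh, hl]
  have key2 : ∀ (c : ℕ) (l : ℤ), g (ee k (l + n * c)) = h (ee k (l + n * c)) →
      g (ee k l) = h (ee k l) := by
    intro c l hl
    rw [← sh_ee, U_sh_mul hg, U_sh_mul hh] at hl
    exact (sh k _).injective hl
  intro l
  have hn' : (0 : ℤ) < n := by exact_mod_cast hn
  -- `l = l0 + n c` with `a < l0 ≤ a + n`
  have h1 := Int.emod_nonneg (l - a - 1) hn'.ne'
  have h2 := Int.emod_lt_of_pos (l - a - 1) hn'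
  have h3 := Int.emod_add_mul_ediv (l - a - 1) n
  set r := (l - a - 1) % (n : ℤ) with hr
  set q := (l - a - 1) / (n : ℤ) with hq
  have h4 : g (ee k (a + 1 + r)) = h (ee k (a + 1 + r)) := hgh _ (by omega) (by omega)
  rcases le_total 0 q with h | h
  · obtain ⟨m, hm⟩ := Int.eq_ofNat_of_zero_le h
    have h5 : l = a + 1 + r + n * (m : ℤ) := by
      have : (m : ℤ) = q := hm.symm
      rw [this]
      linarith
    rw [h5]
    exact key m _ h4
  · obtain ⟨m, hm⟩ := Int.eq_ofNat_of_zero_le (neg_nonneg.2 h)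
    have h5 : l + n * (m : ℤ) = a + 1 + r := by
      have : (m : ℤ) = -q := hm.symm
      rw [this]
      linarith
    apply key2 m
    rw [h5]
    exact h4

/-- leading terms: if `g e_a ∈ e_a + M a` for all `a` and `g` is bijective and commutes with the shift then `g ∈ U`.
Proof: let `u = g⁻¹ e_a`, `i` the least element of the support of `u`; then `g u ∈ u_i e_i + M i`, so `i = a`, `u_a = 1`. -/
theorem mem_U_of {g : E k ≃ₗ[k] E k} (h1 : ∀ v, g (sh k n v) = sh k n (g v))
    (h2 : ∀ a, g (ee k a) - ee k a ∈ M k a) : g ∈ U k n := by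
  have hM : ∀ (i : ℤ) (v : E k), v ∈ M k i → g v ∈ M k i := fun i v hv =>
    map_M_of_unitri k g h2 i v hv
  -- leading term
  have hlead : ∀ (i : ℤ) (v : E k), v ∈ M k (i - 1) → g v i = v i := by
    intro i v hv
    have h3 : v - v i • ee k i ∈ M k i := by
      intro b hb
      rw [Finsupp.sub_apply, Finsupp.smul_apply]
      rcases hb.lt_or_eq with h | h
      · have h4 : ee k i b = 0 := by
          simp only [ee, Finsupp.single_apply]
          rw [if_neg (by omega)]
        rw [h4, smul_zero, sub_zero]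
        exact hv b (by omega)
      · rw [h]
        simp [ee]
    have h4 := hM i _ h3
    have h5 : g v = g (v - v i • ee k i) + v i • (g (ee k i) - ee k i) + v i • ee k i := by
      rw [map_sub, map_smul, smul_sub]
      abel
    rw [h5, Finsupp.add_apply, Finsupp.add_apply, h4 i le_rfl, Finsupp.smul_apply,
      (h2 i) i le_rfl, Finsupp.smul_apply]
    simp [ee]
  -- if `g v ∈ M j` then `v ∈ M j`
  have hinv : ∀ (j : ℤ) (v : E k), g v ∈ M k j → v ∈ M k j := by
    intro j v hv
    by_contra hcon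
    have hne : ∃ b ∈ v.support, b ≤ j := by
      by_contra hno
      push Not at hno
      apply hcon
      intro b hb
      by_contra hb0
      exact absurd (hno b (Finsupp.mem_support_iff.2 hb0)) (not_lt.2 hb)
    obtain ⟨b, hb, hbj⟩ := hne
    have hS : v.support.Nonempty := ⟨b, hb⟩
    set i := v.support.min' hS with hi
    have hib : i ≤ b := Finset.min'_le _ _ hb
    have hvi : v i ≠ 0 := Finsupp.mem_support_iff.1 (Finset.min'_mem _ hS)
    have hvM : v ∈ M k (i - 1) := by
      intro c hc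
      by_contra hc0
      have := Finset.min'_le _ _ (Finsupp.mem_support_iff.2 hc0)
      omega
    apply hvi
    rw [← hlead i v hvM]
    exact hv i (by omega)
  refine ⟨h1, h2, ?_⟩
  intro a
  apply hinv a
  rw [map_sub]
  have e1 : g (g⁻¹ (ee k a)) = ee k a := g.apply_symm_apply _
  rw [e1]
  have h3 := (M k a).neg_mem (h2 a)
  rwa [neg_sub] at h3

end Vale.P067
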