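import Vale.Agent.Lib.P067.D2.Chain

/-!
# P067: dualization.  Exactness of chains at `j`-element faces gives exactness of cochains
-/

namespace Vale.P067

open scoped Classical
open Vale.P067.D2

/-- DUAL lemma: if every cycle on `j`-element faces of `K` bounds, then every cocycle on `j`-element
faces is a coboundary (no closure property of `K` is needed: `g` is defined on all finite sets). -/
theorem dual_fills {V : Type*} {K : Set (Finset V)} {j : ℕ} (hK : Fills K j)
    (f : Finset V → ZMod 2) (hf : ∀ τ ∈ K, τ.card = j + 1 → ∑ v ∈ τ, f (τ.erase v) = 0) :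
    ∃ g : Finset V → ZMod 2, ∀ σ ∈ K, σ.card = j → f σ = ∑ v ∈ σ, g (σ.erase v) := by
  let B : Submodule (ZMod 2) (Ch V) :=
    { carrier := {z | On K j z}
      add_mem' := by
        intro a b ha hb σ hσ
        rcases mem_support_add hσ with h | h
        · exact ha σ h
        · exact hb σ h
      zero_mem' := by
        intro σ hσ
        simp at hσ
      smul_mem' := by
        intro c z hz σ hσ
        exact hz σ (Finsupp.support_smul hσ) }
  let F : Ch V →ₗ[ZMod 2] ZMod 2 := Finsupp.lsum (ZMod 2) fun σ =>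
    LinearMap.toSpanSingleton (ZMod 2) (ZMod 2) (f σ)
  have hF : ∀ σ (c : ZMod 2), F (Finsupp.single σ c) = c * f σ := by
    intro σ c
    rw [Finsupp.lsum_single, LinearMap.toSpanSingleton_apply, smul_eq_mul]
  let bB : B →ₗ[ZMod 2] Ch V := bd ∘ₗ B.subtype
  let FB : Module.Dual (ZMod 2) B := F ∘ₗ B.subtype
  have hmem : FB ∈ (LinearMap.ker bB).dualAnnihilator := by
    rw [Submodule.mem_dualAnnihilator]
    rintro ⟨z, hz⟩ hz0
    have hz1 : bd z = 0 := LinearMap.mem_ker.1 hz0
    obtain ⟨y, hy, hyz⟩ := hK z hz hz1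
    change F z = 0
    rw [← hyz]
    have hy' : y = ∑ τ ∈ y.support, Finsupp.single τ (y τ) := (Finsupp.sum_single y).symm
    rw [hy', map_sum, map_sum]
    refine Finset.sum_eq_zero fun τ hτ => ?_
    rw [bd_single, map_sum]
    have h1 : ∑ v ∈ τ, F (Finsupp.single (τ.erase v) (y τ)) = y τ * ∑ v ∈ τ, f (τ.erase v) := by
      rw [Finset.mul_sum]
      exact Finset.sum_congr rfl fun v _ => hF _ _
    rw [h1, hf τ (hy τ hτ).1 (hy τ hτ).2, mul_zero]
  rw [← LinearMap.range_dualMap_eq_dualAnnihilator_ker] at hmem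
  obtain ⟨G, hG⟩ := hmem
  refine ⟨fun σ => G (Finsupp.single σ 1), fun σ hσ hσj => ?_⟩
  have hB : Finsupp.single σ (1 : ZMod 2) ∈ B := by
    intro τ hτ
    have h1 := Finsupp.support_single_subset hτ
    have h2 : τ = σ := by simpa using h1
    rw [h2]
    exact ⟨hσ, hσj⟩
  have h3 := congrArg (fun H : Module.Dual (ZMod 2) B => H ⟨Finsupp.single σ 1, hB⟩) hG
  have h4 : G (bd (Finsupp.single σ 1)) = F (Finsupp.single σ 1) := h3
  rw [hF, one_mul, bd_single, map_sum] at h4
  exact h4.symm

end Vale.P067
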