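import Mathlib

/-!
# P067: shared definitions

Parts:
* chains of finite abstract complexes over `F_2` (`Ch`, `bd`, `On`, `Fills`);
* the space `E k = k^(ℤ)` with the lattices `L i` (span of `e_b`, `b ≤ i`) and `M i` (span of `e_b`, `b > i`),
  the shift `sh l`, the group `U k n`, the stabilizers `St`, the congruence subgroups `Nc`;
* coset complexes of a group `G` with subgroups `H : S → Subgroup G`: cochains `f : Finset S → G → ZMod 2`,
  `HH`, `InvL`, `dl`, `nm`, `LinkExp`, `Spec`, `Van`, `Exp`.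
-/

namespace Vale.P067

open scoped Classical

/-! ## Chains -/

/-- chains over `F_2` on finite subsets of `V` -/
abbrev Ch (V : Type*) := Finset V →₀ ZMod 2

/-- the (reduced) boundary: `σ ↦ ∑_{v ∈ σ} (σ \ v)` -/
noncomputable def bd {V : Type*} : Ch V →ₗ[ZMod 2] Ch V :=
  Finsupp.lsum (ZMod 2) fun σ =>
    LinearMap.toSpanSingleton (ZMod 2) (Ch V) (∑ v ∈ σ, Finsupp.single (σ.erase v) 1)

/-- `z` is supported on the members of `K` with `j` elements -/
def On {V : Type*} (K : Set (Finset V)) (j : ℕ) (z : Ch V) : Prop :=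
  ∀ σ ∈ z.support, σ ∈ K ∧ σ.card = j

/-- every cycle on `j`-element faces bounds a chain of `(j+1)`-element faces (`H̃_{j-1} = 0`) -/
def Fills {V : Type*} (K : Set (Finset V)) (j : ℕ) : Prop :=
  ∀ z : Ch V, On K j z → bd z = 0 → ∃ y : Ch V, On K (j + 1) y ∧ bd y = z

/-! ## The space `E` -/

/-- the vector space with basis `e_a`, `a ∈ ℤ` -/
abbrev E (k : Type*) [Field k] := ℤ →₀ k

section space
variable (k : Type*) [Field k]

/-- span of the `e_b`, `b ≤ i` -/
def L (i : ℤ) : Submodule k (E k) where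
  carrier := {v | ∀ b, i < b → v b = 0}
  add_mem' := by
    intro v w hv hw b hb
    simp [hv b hb, hw b hb]
  zero_mem' := by intro b _; rfl
  smul_mem' := by
    intro c v hv b hb
    simp [hv b hb]

/-- span of the `e_b`, `b > i` -/
def M (i : ℤ) : Submodule k (E k) where
  carrier := {v | ∀ b, b ≤ i → v b = 0}
  add_mem' := by
    intro v w hv hw b hb
    simp [hv b hb, hw b hb]
  zero_mem' := by intro b _; rfl
  smul_mem' := by
    intro c v hv b hb
    simp [hv b hb]

/-- the shift `e_a ↦ e_{a+l}` -/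
noncomputable def sh (l : ℤ) : E k ≃ₗ[k] E k :=
  Finsupp.domLCongr (Equiv.addRight l)

/-- basis vector -/
noncomputable abbrev ee (a : ℤ) : E k := Finsupp.single a 1

theorem M_anti {i j : ℤ} (h : i ≤ j) : M k j ≤ M k i := by
  intro v hv b hb
  exact hv b (le_trans hb h)

theorem L_mono {i j : ℤ} (h : i ≤ j) : L k i ≤ L k j := by
  intro v hv b hb
  exact hv b (lt_of_le_of_lt h hb)

theorem ee_mem_M {a i : ℤ} (h : i < a) : ee k a ∈ M k i := by
  intro b hb
  simp only [ee, Finsupp.single_apply]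
  rw [if_neg]
  omega

/-- an endomorphism with `g e_a - e_a ∈ M a` for all `a` maps `M i` into `M i` -/
theorem map_M_of_unitri (g : E k ≃ₗ[k] E k) (hg : ∀ a, g (ee k a) - ee k a ∈ M k a) (i : ℤ)
    (v : E k) (hv : v ∈ M k i) : g v ∈ M k i := by
  have hgv : g v = ∑ a ∈ v.support, v a • g (ee k a) := by
    conv_lhs => rw [← Finsupp.sum_single v]
    rw [Finsupp.sum, map_sum]
    refine Finset.sum_congr rfl fun a _ => ?_
    rw [← map_smul]
    congr 1
    simp [ee]
  rw [hgv]
  refine Submodule.sum_mem _ fun a ha => Submodule.smul_mem _ _ ?_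
  have hai : i < a := by
    by_contra hcon
    exact (Finsupp.mem_support_iff.mp ha) (hv a (not_lt.mp hcon))
  have h1 : g (ee k a) = (g (ee k a) - ee k a) + ee k a := by abel
  rw [h1]
  exact Submodule.add_mem _ (M_anti k hai.le (hg a)) (ee_mem_M k hai)

/-- the group `U`: automorphisms commuting with the shift by `n`, unitriangular -/
noncomputable def U (n : ℕ) : Subgroup (E k ≃ₗ[k] E k) where
  carrier := {g | (∀ v, g (sh k n v) = sh k n (g v)) ∧ (∀ a, g (ee k a) - ee k a ∈ M k a) ∧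
    (∀ a, g⁻¹ (ee k a) - ee k a ∈ M k a)}
  mul_mem' := by
    intro g h hg hh
    refine ⟨fun v => ?_, fun a => ?_, fun a => ?_⟩
    · change g (h (sh k n v)) = sh k n (g (h v))
      rw [hh.1, hg.1]
    · change g (h (ee k a)) - ee k a ∈ M k a
      have h1 : g (h (ee k a)) - ee k a = g (h (ee k a) - ee k a) + (g (ee k a) - ee k a) := by
        rw [map_sub]; abel
      rw [h1]
      exact Submodule.add_mem _ (map_M_of_unitri k g hg.2.1 a _ (hh.2.1 a)) (hg.2.1 a)
    · rw [mul_inv_rev]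
      change h⁻¹ (g⁻¹ (ee k a)) - ee k a ∈ M k a
      have h1 : h⁻¹ (g⁻¹ (ee k a)) - ee k a
          = h⁻¹ (g⁻¹ (ee k a) - ee k a) + (h⁻¹ (ee k a) - ee k a) := by
        rw [map_sub]; abel
      rw [h1]
      exact Submodule.add_mem _ (map_M_of_unitri k h⁻¹ hh.2.2 a _ (hg.2.2 a)) (hh.2.2 a)
  one_mem' := by
    refine ⟨fun v => rfl, fun a => ?_, fun a => ?_⟩
    · change ee k a - ee k a ∈ M k a
      rw [sub_self]; exact Submodule.zero_mem _
    · rw [inv_one]
      change ee k a - ee k a ∈ M k a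
      rw [sub_self]; exact Submodule.zero_mem _
  inv_mem' := by
    intro g hg
    refine ⟨fun v => ?_, hg.2.2, fun a => ?_⟩
    · apply g.injective
      have e1 : g (g⁻¹ (sh k n v)) = sh k n v := g.apply_symm_apply _
      have e2 : g (g⁻¹ v) = v := g.apply_symm_apply _
      rw [e1, hg.1, e2]
    · rw [inv_inv]
      exact hg.2.1 a

/-- the stabilizer of the lattice `L i` -/
def St (i : ℤ) : Subgroup (E k ≃ₗ[k] E k) where
  carrier := {g | (L k i).map (g : E k →ₗ[k] E k) = L k i}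
  mul_mem' := by
    intro g h hg hh
    change (L k i).map ((g : E k →ₗ[k] E k).comp (h : E k →ₗ[k] E k)) = L k i
    rw [Submodule.map_comp]
    have h1 : (L k i).map (h : E k →ₗ[k] E k) = L k i := hh
    have h2 : (L k i).map (g : E k →ₗ[k] E k) = L k i := hg
    rw [h1, h2]
  one_mem' := by
    change (L k i).map (LinearMap.id) = L k i
    exact Submodule.map_id _
  inv_mem' := by
    intro g hg
    have h2 : (L k i).map (g : E k →ₗ[k] E k) = L k i := hg
    change (L k i).map ((g⁻¹ : E k ≃ₗ[k] E k) : E k →ₗ[k] E k) = L k i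
    conv_lhs => rw [← h2]
    rw [← Submodule.map_comp]
    have h3 : ((g⁻¹ : E k ≃ₗ[k] E k) : E k →ₗ[k] E k).comp (g : E k →ₗ[k] E k) = LinearMap.id := by
      refine LinearMap.ext fun v => ?_
      exact g.symm_apply_apply v
    rw [h3, Submodule.map_id]

/-- the congruence subgroup of level `t^m` -/
noncomputable def Nc (n m : ℕ) : Subgroup (U k n) where
  carrier := {g | ∀ v ∈ M k 0, (g : E k ≃ₗ[k] E k) v - v ∈ M k (m * n)}
  mul_mem' := by
    intro g h hg hh v hv
    have h0 : (h : E k ≃ₗ[k] E k) v ∈ M k 0 := map_M_of_unitri k _ h.2.2.1 0 v hv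
    have h1 := hg _ h0
    have h2 := hh v hv
    change (g : E k ≃ₗ[k] E k) ((h : E k ≃ₗ[k] E k) v) - v ∈ M k (m * n)
    have h3 : (g : E k ≃ₗ[k] E k) ((h : E k ≃ₗ[k] E k) v) - v =
        ((g : E k ≃ₗ[k] E k) ((h : E k ≃ₗ[k] E k) v) - (h : E k ≃ₗ[k] E k) v)
          + ((h : E k ≃ₗ[k] E k) v - v) := by abel
    rw [h3]
    exact Submodule.add_mem _ h1 h2
  one_mem' := by
    intro v _
    change v - v ∈ M k (m * n)
    rw [sub_self]; exact Submodule.zero_mem _
  inv_mem' := by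
    intro g hg v hv
    have h0 : ((g : E k ≃ₗ[k] E k)⁻¹) v ∈ M k 0 := map_M_of_unitri k _ g.2.2.2 0 v hv
    have h1 := hg _ h0
    have e2 : (g : E k ≃ₗ[k] E k) ((g : E k ≃ₗ[k] E k)⁻¹ v) = v :=
      (g : E k ≃ₗ[k] E k).apply_symm_apply _
    rw [e2] at h1
    change ((g : E k ≃ₗ[k] E k)⁻¹) v - v ∈ M k (m * n)
    have h3 : ((g : E k ≃ₗ[k] E k)⁻¹) v - v = -(v - ((g : E k ≃ₗ[k] E k)⁻¹) v) := by abel
    rw [h3]
    exact Submodule.neg_mem _ h1

instance Nc_normal (n m : ℕ) : (Nc k n m).Normal := by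
  constructor
  intro g hg u v hv
  have h0 : ((u : E k ≃ₗ[k] E k)⁻¹) v ∈ M k 0 := map_M_of_unitri k _ u.2.2.2 0 v hv
  have h1 : (g : E k ≃ₗ[k] E k) ((u : E k ≃ₗ[k] E k)⁻¹ v) - (u : E k ≃ₗ[k] E k)⁻¹ v
      ∈ M k (m * n) := hg _ h0
  have h2 := map_M_of_unitri k (u : E k ≃ₗ[k] E k) u.2.2.1 (m * n) _ h1
  rw [map_sub] at h2
  have e2 : (u : E k ≃ₗ[k] E k) ((u : E k ≃ₗ[k] E k)⁻¹ v) = v :=
    (u : E k ≃ₗ[k] E k).apply_symm_apply _
  rw [e2] at h2
  exact h2

/-- the finite group `G_m = U / N_m` -/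
abbrev Gm (n m : ℕ) := U k n ⧸ Nc k n m

/-- the subgroups `H_s` of `U`, `s = 0, …, n-1` -/
noncomputable def Hs (n : ℕ) (s : Fin n) : Subgroup (U k n) := (St k (s : ℤ)).subgroupOf (U k n)

/-- the subgroups `H_s` of `G_m` -/
noncomputable def Hm (n m : ℕ) (s : Fin n) : Subgroup (Gm k n m) :=
  (Hs k n s).map (QuotientGroup.mk' (Nc k n m))

end space

/-! ## Coset complexes -/

section coset
variable {S : Type*} [Fintype S] {G : Type*} [Group G]

/-- stabilizer of the face of type `J` of the fundamental chamber -/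
def HH (H : S → Subgroup G) (J : Finset S) : Subgroup G := ⨅ s ∈ J, H s

/-- `f` is, on types `J` disjoint from `J0` with `i` elements, right invariant under `H_{J0 ∪ J}`:
a cochain (`i` vertices) on all links of faces of type `J0` -/
def InvL (H : S → Subgroup G) (J0 : Finset S) (i : ℕ) (f : Finset S → G → ZMod 2) : Prop :=
  ∀ J : Finset S, Disjoint J J0 → J.card = i → ∀ x : G, ∀ h ∈ HH H (J0 ∪ J), f J (x * h) = f J x

/-- coboundary -/
noncomputable def dl (f : Finset S → G → ZMod 2) : Finset S → G → ZMod 2 :=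
  fun J x => ∑ s ∈ J, f (J.erase s) x

/-- average of a real function over `H_{J0}` at `x` -/
noncomputable def av (H : S → Subgroup G) (J0 : Finset S) (x : G) (φ : G → ℝ) : ℝ :=
  (∑ᶠ h : HH H J0, φ (x * h)) / Nat.card (HH H J0)

/-- norm of an `i`-vertex cochain on the link of the face `(J0, x)`: sum over the types `J` of the
proportion of `h ∈ H_{J0}` with `f J (x h) ≠ 0` -/
noncomputable def nm (H : S → Subgroup G) (J0 : Finset S) (x : G) (i : ℕ)
    (f : Finset S → G → ZMod 2) : ℝ :=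
  ∑ J ∈ (J0ᶜ).powersetCard i, av H J0 x (fun y => if f J y = 0 then 0 else 1)

/-- coboundary expansion of all links of type `J0`, for cochains on faces with `i+1` vertices -/
def LinkExp (H : S → Subgroup G) (J0 : Finset S) (i : ℕ) (β : ℝ) : Prop :=
  ∀ g : Finset S → G → ZMod 2, InvL H J0 (i + 1) g → ∃ b : Finset S → G → ZMod 2,
    InvL H J0 i b ∧ ∀ x : G, β * nm H J0 x (i + 1) (g - dl b) ≤ nm H J0 x (i + 2) (dl g)

/-- all links (including the whole complex, `J0 = ∅`) have, for each pair of types, bipartite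
second singular value at most `lam` -/
def Spec (H : S → Subgroup G) (lam : ℝ) : Prop :=
  ∀ (J0 : Finset S) (s t : S), s ∉ J0 → t ∉ J0 → s ≠ t → ∀ φ ψ : G → ℝ,
    (∀ x, ∀ h ∈ HH H (insert s J0), φ (x * h) = φ x) →
    (∀ x, ∀ h ∈ HH H (insert t J0), ψ (x * h) = ψ x) → ∀ x,
    |av H J0 x (fun y => φ y * ψ y) - av H J0 x φ * av H J0 x ψ| ≤
      lam * Real.sqrt (av H J0 x (fun y => φ y ^ 2) * av H J0 x (fun y => ψ y ^ 2))

/-- vanishing of the (reduced) cohomology on faces with `j+1` vertices -/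
def Van (H : S → Subgroup G) (j : ℕ) : Prop :=
  ∀ f : Finset S → G → ZMod 2, InvL H ∅ (j + 1) f →
    (∀ J : Finset S, J.card = j + 2 → ∀ x, dl f J x = 0) →
    ∃ b : Finset S → G → ZMod 2, InvL H ∅ j b ∧ ∀ J : Finset S, J.card = j + 1 → ∀ x, f J x = dl b J x

/-- coboundary expansion of the whole complex on faces with `j+1` vertices -/
def Exp (H : S → Subgroup G) (j : ℕ) (ε : ℝ) : Prop :=
  ∀ f : Finset S → G → ZMod 2, InvL H ∅ (j + 1) f → ∃ b : Finset S → G → ZMod 2,
    InvL H ∅ j b ∧ ε * nm H ∅ 1 (j + 1) (f - dl b) ≤ nm H ∅ 1 (j + 2) (dl f)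

end coset

end Vale.P067
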