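import Vale.Agent.Lib.P067.UFacts

/-!
# P067, shared module Quot: the stabilizers in the quotient G_m (PROOF_B B4 (i))

Hs_inj: h ∈ Hs s, h' ∈ Hs s', h⁻¹ h' ∈ N_m, m ≥ 2 ⇒ h = h'.  For 1 ≤ a ≤ n: e_a ∈ M 0, so
(h⁻¹ h' - 1) e_a ∈ M (m n), so (h' - h) e_a ∈ h (M (m n)) = M (m n) (h is unitriangular: h (M i) ⊆ M i).
There is i ≡ s mod n with a ≤ i ≤ a + n - 1, h (L i) = L i, so h e_a ∈ L (a+n-1); the same for h'.  As
a + n - 1 ≤ 2n - 1 ≤ m n: (h' - h) e_a ∈ L (mn) ⊓ M (mn) = 0.  By periodicity for all a.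
HH_mk_inj, HH_inf_Nc: special cases.
HH_Hm: x ∈ HH (Hm) J, J ∋ s: x = π(h), h ∈ Hs s; for s' ∈ J also x = π(h'), h' ∈ Hs s', so h = h' ∈ Hs s'.
-/

namespace Vale.P067

open scoped Classical

variable (k : Type*) [Field k] (n : ℕ)

/-- an element of a stabilizer maps `e_a` into `L (a + n - 1)` -/
private theorem Quot_mem_L {k : Type*} [Field k] {n : ℕ} {s : Fin n} {h : U k n}
    (hs : h ∈ Hs k n s) (a : ℤ) : (h : E k ≃ₗ[k] E k) (ee k a) ∈ L k (a + n - 1) := by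
  have hn : 0 < n := lt_of_le_of_lt (Nat.zero_le _) s.2
  have hn' : (0 : ℤ) < n := by exact_mod_cast hn
  have h1 := Int.emod_nonneg ((s : ℤ) - a) hn'.ne'
  have h2 := Int.emod_lt_of_pos ((s : ℤ) - a) hn'
  have h3 := Int.emod_add_mul_ediv ((s : ℤ) - a) n
  set r := ((s : ℤ) - a) % (n : ℤ) with hr
  set q := ((s : ℤ) - a) / (n : ℤ) with hq
  have hmod : (s : ℤ) ≡ a + r [ZMOD n] := by
    rw [Int.modEq_iff_dvd]
    refine ⟨-q, ?_⟩
    linarith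
  have hst : (h : E k ≃ₗ[k] E k) ∈ St k (a + r) := by
    rw [← U_St_mod h.2 hmod]
    exact Subgroup.mem_subgroupOf.1 hs
  have hst' : (L k (a + r)).map ((h : E k ≃ₗ[k] E k) : E k →ₗ[k] E k) = L k (a + r) := hst
  have he : ee k a ∈ L k (a + r) := by
    intro b hb
    simp only [ee, Finsupp.single_apply]
    rw [if_neg]
    omega
  have h4 : (h : E k ≃ₗ[k] E k) (ee k a) ∈ L k (a + r) := by
    rw [← hst']
    exact ⟨ee k a, he, rfl⟩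
  exact L_mono k (by omega) h4

theorem Hs_inj (m : ℕ) (hm : 2 ≤ m) (s s' : Fin n) (h h' : U k n) (hs : h ∈ Hs k n s)
    (hs' : h' ∈ Hs k n s') (hh : h⁻¹ * h' ∈ Nc k n m) : h = h' := by
  have hn : 0 < n := lt_of_le_of_lt (Nat.zero_le _) s.2
  apply Subtype.ext
  apply U_ext hn 0 h.2 h'.2
  intro a ha1 ha2
  have h1 : ee k a ∈ M k 0 := ee_mem_M k ha1
  have h2 : ((h⁻¹ * h' : U k n) : E k ≃ₗ[k] E k) (ee k a) - ee k a ∈ M k (m * n) := hh _ h1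
  have h3 := U_sub_mem h.2 _ h2
  rw [map_sub] at h3
  have h4 : (h : E k ≃ₗ[k] E k) (((h⁻¹ * h' : U k n) : E k ≃ₗ[k] E k) (ee k a))
      = (h' : E k ≃ₗ[k] E k) (ee k a) := by
    change (h : E k ≃ₗ[k] E k) ((h : E k ≃ₗ[k] E k)⁻¹ ((h' : E k ≃ₗ[k] E k) (ee k a))) = _
    exact (h : E k ≃ₗ[k] E k).apply_symm_apply _
  rw [h4] at h3
  have h5 : (h' : E k ≃ₗ[k] E k) (ee k a) - (h : E k ≃ₗ[k] E k) (ee k a) ∈ L k (a + n - 1) :=
    Submodule.sub_mem _ (Quot_mem_L hs' a) (Quot_mem_L hs a)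
  have h6 : (h' : E k ≃ₗ[k] E k) (ee k a) - (h : E k ≃ₗ[k] E k) (ee k a) = 0 := by
    refine Finsupp.ext fun b => ?_
    rcases le_or_gt b (m * n : ℤ) with hb | hb
    · exact h3 b hb
    · refine h5 b ?_
      have h7 : (2 : ℤ) * n ≤ m * n := by
        have : (2 : ℤ) ≤ m := by exact_mod_cast hm
        nlinarith
      omega
  exact (sub_eq_zero.1 h6).symm

/-- the quotient map is injective on the stabilizers -/
theorem HH_mk_inj (m : ℕ) (hm : 2 ≤ m) (J : Finset (Fin n)) (hJ : J.Nonempty) (h h' : U k n)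
    (hh : h ∈ HH (Hs k n) J) (hh' : h' ∈ HH (Hs k n) J)
    (he : QuotientGroup.mk' (Nc k n m) h = QuotientGroup.mk' (Nc k n m) h') : h = h' := by
  obtain ⟨s, hs⟩ := hJ
  have h1 : h ∈ Hs k n s := Subgroup.mem_iInf.1 (Subgroup.mem_iInf.1 hh s) hs
  have h2 : h' ∈ Hs k n s := Subgroup.mem_iInf.1 (Subgroup.mem_iInf.1 hh' s) hs
  exact Hs_inj k n m hm s s h h' h1 h2 (QuotientGroup.eq.1 he)

theorem HH_inf_Nc (m : ℕ) (hm : 2 ≤ m) (J : Finset (Fin n)) (hJ : J.Nonempty) (h : U k n)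
    (hh : h ∈ HH (Hs k n) J) (hN : h ∈ Nc k n m) : h = 1 := by
  obtain ⟨s, hs⟩ := hJ
  have h1 : h ∈ Hs k n s := Subgroup.mem_iInf.1 (Subgroup.mem_iInf.1 hh s) hs
  refine (Hs_inj k n m hm s s 1 h (Subgroup.one_mem _) h1 ?_).symm
  rw [inv_one, one_mul]
  exact hN

theorem HH_Hm (m : ℕ) (hm : 2 ≤ m) (J : Finset (Fin n)) (hJ : J.Nonempty) :
    HH (Hm k n m) J = (HH (Hs k n) J).map (QuotientGroup.mk' (Nc k n m)) := by
  apply le_antisymm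
  · intro x hx
    obtain ⟨s, hs⟩ := hJ
    have hx' : ∀ s' ∈ J, x ∈ Hm k n m s' := fun s' hs' =>
      Subgroup.mem_iInf.1 (Subgroup.mem_iInf.1 hx s') hs'
    obtain ⟨h, hh, rfl⟩ := hx' s hs
    refine ⟨h, ?_, rfl⟩
    refine Subgroup.mem_iInf.2 fun s' => Subgroup.mem_iInf.2 fun hs' => ?_
    obtain ⟨h', hh', he⟩ := hx' s' hs'
    have h1 : h = h' := Hs_inj k n m hm s s' h h' hh hh' (QuotientGroup.eq.1 he.symm)
    rw [h1]
    exact hh'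
  · rintro _ ⟨h, hh, rfl⟩
    refine Subgroup.mem_iInf.2 fun s => Subgroup.mem_iInf.2 fun hs => ?_
    exact ⟨h, Subgroup.mem_iInf.1 (Subgroup.mem_iInf.1 hh s) hs, rfl⟩

end Vale.P067
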