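import Mathlib
import Vale.Agent.Lib.P067.D2.Euclid

/-!
# P067, part D: shared definitions (matrix model)

`R = k[X]`, `SLk k n = SL_n(k[X])`, `Ncg k n m` the congruence subgroup of level `X^m`, `Umat k n` the
matrices `g` with `g(0)` lower unitriangular, `PBs k n` the complex of partial bases of `R^n`.
`SL_n(R)` acts on `Fin n → R` by the Mathlib instance (`g • v = g.1 • v = g.1 *ᵥ v`).
-/

namespace Vale.P067

open scoped Classical
open Polynomial

section

variable (k : Type*) [Field k] (n : ℕ)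

/-- `SL_n(k[X])` -/
abbrev SLk := Matrix.SpecialLinearGroup (Fin n) k[X]

variable {k n} in
theorem SLk_smul_def (g : SLk k n) (v : Fin n → k[X]) :
    g • v = (g : Matrix (Fin n) (Fin n) k[X]).mulVec v := rfl

/-- congruence subgroup of level `X^m` -/
def Ncg (m : ℕ) : Subgroup (SLk k n) where
  carrier := {g | ∀ i j, (X : k[X]) ^ m ∣ (g : Matrix (Fin n) (Fin n) k[X]) i j -
    (1 : Matrix (Fin n) (Fin n) k[X]) i j}
  mul_mem' := by
    intro a b ha hb i j
    have h : (a * b : Matrix (Fin n) (Fin n) k[X]) i j - (1 : Matrix (Fin n) (Fin n) k[X]) i j =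
        ∑ l, ((a : Matrix (Fin n) (Fin n) k[X]) i l - (1 : Matrix (Fin n) (Fin n) k[X]) i l) *
          (b : Matrix (Fin n) (Fin n) k[X]) l j +
        ((b : Matrix (Fin n) (Fin n) k[X]) i j - (1 : Matrix (Fin n) (Fin n) k[X]) i j) := by
      rw [Matrix.mul_apply]
      simp only [sub_mul, Finset.sum_sub_distrib]
      rw [← Matrix.mul_apply (M := (1 : Matrix (Fin n) (Fin n) k[X])), Matrix.one_mul]
      ring
    change (X : k[X]) ^ m ∣ (a * b : Matrix (Fin n) (Fin n) k[X]) i j - _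
    rw [h]
    exact dvd_add (Finset.dvd_sum fun l _ => Dvd.dvd.mul_right (ha i l) _) (hb i j)
  one_mem' := by
    intro i j
    simp
  inv_mem' := by
    intro a ha i j
    have h : ((a⁻¹ : SLk k n) : Matrix (Fin n) (Fin n) k[X]) i j -
        (1 : Matrix (Fin n) (Fin n) k[X]) i j =
        - ∑ l, ((a : Matrix (Fin n) (Fin n) k[X]) i l - (1 : Matrix (Fin n) (Fin n) k[X]) i l) *
          ((a⁻¹ : SLk k n) : Matrix (Fin n) (Fin n) k[X]) l j := by
      simp only [sub_mul, Finset.sum_sub_distrib]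
      rw [← Matrix.mul_apply, ← Matrix.mul_apply, Matrix.one_mul]
      have h2 : (a : Matrix (Fin n) (Fin n) k[X]) * ((a⁻¹ : SLk k n) : Matrix (Fin n) (Fin n) k[X]) =
          1 := by
        rw [← Matrix.SpecialLinearGroup.coe_mul, mul_inv_cancel, Matrix.SpecialLinearGroup.coe_one]
      rw [h2]
      ring
    rw [h]
    exact (dvd_neg).2 (Finset.dvd_sum fun l _ => Dvd.dvd.mul_right (ha i l) _)

theorem mem_Ncg {m : ℕ} {g : SLk k n} : g ∈ Ncg k n m ↔ ∀ i j, (X : k[X]) ^ m ∣
    (g : Matrix (Fin n) (Fin n) k[X]) i j - (1 : Matrix (Fin n) (Fin n) k[X]) i j := Iff.rfl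

instance Ncg_normal (m : ℕ) : (Ncg k n m).Normal := by
  constructor
  intro a ha g i j
  have h : ((g * a * g⁻¹ : SLk k n) : Matrix (Fin n) (Fin n) k[X]) i j -
      (1 : Matrix (Fin n) (Fin n) k[X]) i j =
      ∑ l, (∑ l', (g : Matrix (Fin n) (Fin n) k[X]) i l' *
        ((a : Matrix (Fin n) (Fin n) k[X]) l' l - (1 : Matrix (Fin n) (Fin n) k[X]) l' l)) *
          ((g⁻¹ : SLk k n) : Matrix (Fin n) (Fin n) k[X]) l j := by
    simp only [mul_sub, Finset.sum_sub_distrib, sub_mul]
    rw [Matrix.SpecialLinearGroup.coe_mul, Matrix.SpecialLinearGroup.coe_mul]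
    have h1 : ∀ l, ∑ l', (g : Matrix (Fin n) (Fin n) k[X]) i l' *
        (a : Matrix (Fin n) (Fin n) k[X]) l' l = ((g : Matrix (Fin n) (Fin n) k[X]) * a) i l :=
      fun l => (Matrix.mul_apply).symm
    have h2 : ∀ l, ∑ l', (g : Matrix (Fin n) (Fin n) k[X]) i l' *
        (1 : Matrix (Fin n) (Fin n) k[X]) l' l = (g : Matrix (Fin n) (Fin n) k[X]) i l := by
      intro l
      rw [← Matrix.mul_apply, Matrix.mul_one]
    simp only [h1, h2]
    rw [← Matrix.mul_apply, ← Matrix.mul_apply]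
    have h3 : (g : Matrix (Fin n) (Fin n) k[X]) * ((g⁻¹ : SLk k n) : Matrix (Fin n) (Fin n) k[X]) =
        1 := by
      rw [← Matrix.SpecialLinearGroup.coe_mul, mul_inv_cancel, Matrix.SpecialLinearGroup.coe_one]
    rw [h3]
  rw [h]
  exact Finset.dvd_sum fun l _ => Dvd.dvd.mul_right (Finset.dvd_sum fun l' _ =>
    Dvd.dvd.mul_left (ha l' l) _) _

/-- `g(0)` is lower unitriangular (the columns are the images of the basis vectors:
`g e_a ∈ e_a + ` span of the `e_b`, `b > a`, modulo `X`) -/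
def LowU {k : Type*} [Field k] {n : ℕ} (g : SLk k n) : Prop :=
  ∀ i j, i ≤ j → X ∣ (g : Matrix (Fin n) (Fin n) k[X]) i j - (1 : Matrix (Fin n) (Fin n) k[X]) i j

variable {k n} in
theorem LowU.mul {a b : SLk k n} (ha : LowU a) (hb : LowU b) : LowU (a * b) := by
  intro i j hij
  change X ∣ ((a : Matrix (Fin n) (Fin n) k[X]) * b) i j - _
  have h : ((a : Matrix (Fin n) (Fin n) k[X]) * b) i j - (1 : Matrix (Fin n) (Fin n) k[X]) i j =
      ∑ l, ((a : Matrix (Fin n) (Fin n) k[X]) i l * (b : Matrix (Fin n) (Fin n) k[X]) l j -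
        (1 : Matrix (Fin n) (Fin n) k[X]) i l * (1 : Matrix (Fin n) (Fin n) k[X]) l j) := by
    rw [Finset.sum_sub_distrib, ← Matrix.mul_apply, ← Matrix.mul_apply, Matrix.one_mul]
  rw [h]
  refine Finset.dvd_sum fun l _ => ?_
  rcases lt_or_ge l j with hlj | hlj
  · have h1 := hb l j hlj.le
    rw [Matrix.one_apply_ne hlj.ne, sub_zero] at h1
    rw [Matrix.one_apply_ne hlj.ne, mul_zero, sub_zero]
    exact Dvd.dvd.mul_left h1 _
  · have hil : i ≤ l := hij.trans hlj
    have h1 := ha i l hil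
    rcases eq_or_lt_of_le hil with h2 | h2
    · subst h2
      have hji : j = i := le_antisymm hlj hij
      subst hji
      have h3 := hb j j le_rfl
      have h4 : (a : Matrix (Fin n) (Fin n) k[X]) j j * (b : Matrix (Fin n) (Fin n) k[X]) j j -
          (1 : Matrix (Fin n) (Fin n) k[X]) j j * (1 : Matrix (Fin n) (Fin n) k[X]) j j =
          ((a : Matrix (Fin n) (Fin n) k[X]) j j - (1 : Matrix (Fin n) (Fin n) k[X]) j j) *
            (b : Matrix (Fin n) (Fin n) k[X]) j j + (1 : Matrix (Fin n) (Fin n) k[X]) j j *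
            ((b : Matrix (Fin n) (Fin n) k[X]) j j - (1 : Matrix (Fin n) (Fin n) k[X]) j j) := by
        ring
      rw [h4]
      exact dvd_add (Dvd.dvd.mul_right h1 _) (Dvd.dvd.mul_left h3 _)
    · rw [Matrix.one_apply_ne h2.ne, sub_zero] at h1
      rw [Matrix.one_apply_ne h2.ne, zero_mul, sub_zero]
      exact Dvd.dvd.mul_right h1 _

/-- the group of the matrices with `g(0)` lower unitriangular (`g⁻¹` has the same property
automatically, but it is convenient to include it) -/
def Umat : Subgroup (SLk k n) where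
  carrier := {g | LowU g ∧ LowU g⁻¹}
  mul_mem' := by
    rintro a b ⟨ha, ha'⟩ ⟨hb, hb'⟩
    refine ⟨ha.mul hb, ?_⟩
    rw [mul_inv_rev]
    exact hb'.mul ha'
  one_mem' := by
    have h : LowU (1 : SLk k n) := by
      intro i j _
      simp
    exact ⟨h, by rwa [inv_one]⟩
  inv_mem' := by
    rintro a ⟨ha, ha'⟩
    exact ⟨ha', by rwa [inv_inv]⟩

theorem Ncg_le_Umat {m : ℕ} (hm : 1 ≤ m) : Ncg k n m ≤ Umat k n := by
  intro g hg
  have key : ∀ g ∈ Ncg k n m, LowU g := fun g hg i j _ =>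
    (dvd_pow_self X (by omega)).trans (hg i j)
  exact ⟨key g hg, key _ ((Ncg k n m).inv_mem hg)⟩

/-- partial bases of `k[X]^n` -/
def PBs : Set (Finset (Fin n → k[X])) := {σ | D2.PB k[X] σ}

end

end Vale.P067
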