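import Vale.Agent.Lib.P067.UFacts

/-!
# P067: construction of elements of `U k n` from their values on `e_l`, `a < l ≤ a + n`

Proof of `exists_U_of_values`.  Define `g0 : ℤ → E k` by `g0 l = sh k (c * n) (w (l - c * n))`, where
`c = (l - a - 1) / n` (floor), so that `l - c * n ∈ (a, a+n]`; `g : E k →ₗ[k] E k := Finsupp.linearCombination k g0`
(or `Finsupp.lift`).  Then `g0 (l + n) = sh k n (g0 l)`, so `g` commutes with `sh k n` (check on basis vectors);
`g0 l - e_l ∈ M l` and `g0 l ∈ L (a + (c+1) * n)` for `l ≤ a + (c + 1) n`.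
Injective: if `v ≠ 0` and `i` is the least element of the support then `g v ∈ v_i e_i + M i`, so `(g v) i = v i ≠ 0`.
Surjective: let `v ∈ E`, choose `C` with `v ∈ L (a + C n)`. By induction on the number `d = (a + C n) - i` (natural number,
downwards): every `v ∈ L (a + C n) ⊓ M i`, `i ≤ a + C n`, is in the range: `v - v_{i+1} • g0 (i+1) ∈ L (a + C n) ⊓ M (i+1)`.
For `i = a + C n` the intersection is zero. Then `LinearEquiv.ofBijective` and `mem_U_of`.
-/

namespace Vale.P067

open scoped Classical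

variable {k : Type*} [Field k] {n : ℕ}

namespace UMkAux

/-- the number of periods -/
def cc (a : ℤ) (n : ℕ) (l : ℤ) : ℤ := (l - a - 1) / n

/-- the periodic extension of `w` -/
noncomputable def g0 (a : ℤ) (n : ℕ) (w : ℤ → E k) (l : ℤ) : E k :=
  sh k (cc a n l * n) (w (l - cc a n l * n))

theorem shap (l : ℤ) (v : E k) (b : ℤ) : sh k l v b = v (b - l) := by
  simp [sh, Finsupp.domLCongr, Finsupp.equivMapDomain_apply, sub_eq_add_neg]

theorem cc_range (hn : 0 < n) (a l : ℤ) :
    a < l - cc a n l * n ∧ l - cc a n l * n ≤ a + n := by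
  have hn' : (0 : ℤ) < n := by exact_mod_cast hn
  have h1 := Int.emod_nonneg (l - a - 1) hn'.ne'
  have h2 := Int.emod_lt_of_pos (l - a - 1) hn'
  have h3 := Int.mul_ediv_add_emod (l - a - 1) n
  unfold cc
  constructor <;> nlinarith

theorem cc_base {a l : ℤ} (h1 : a < l) (h2 : l ≤ a + n) : cc a n l = 0 := by
  unfold cc
  exact Int.ediv_eq_zero_of_lt (by omega) (by omega)

theorem cc_add (hn : 0 < n) (a l : ℤ) : cc a n (l + n) = cc a n l + 1 := by
  have hn' : (n : ℤ) ≠ 0 := by exact_mod_cast hn.ne'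
  unfold cc
  have h : l + (n : ℤ) - a - 1 = (l - a - 1) + 1 * n := by ring
  rw [h, Int.add_mul_ediv_right _ _ hn']

theorem cc_lt (hn : 0 < n) {a l C : ℤ} (h : l ≤ a + C * n) : cc a n l + 1 ≤ C := by
  have hn' : (0 : ℤ) < n := by exact_mod_cast hn
  have h1 : cc a n l < C := by
    unfold cc
    rw [Int.ediv_lt_iff_lt_mul hn']
    omega
  omega

theorem g0_add (hn : 0 < n) (a : ℤ) (w : ℤ → E k) (l : ℤ) :
    g0 a n w (l + n) = sh k n (g0 a n w l) := by
  unfold g0
  rw [cc_add hn]
  have h : l + (n : ℤ) - (cc a n l + 1) * n = l - cc a n l * n := by ring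
  rw [h]
  refine Finsupp.ext fun b => ?_
  rw [shap, shap, shap]
  congr 1
  ring

theorem g0_base {a : ℤ} (w : ℤ → E k) {l : ℤ} (h1 : a < l) (h2 : l ≤ a + n) :
    g0 a n w l = w l := by
  unfold g0
  rw [cc_base h1 h2]
  refine Finsupp.ext fun b => ?_
  rw [shap]
  simp

variable {a : ℤ} {w : ℤ → E k}

theorem g0_M (hn : 0 < n)
    (hw : ∀ l, a < l → l ≤ a + n → w l - ee k l ∈ M k l ∧ w l ∈ L k (a + n)) (l : ℤ) :
    g0 a n w l - ee k l ∈ M k l := by
  intro b hb
  obtain ⟨h1, h2⟩ := cc_range hn a l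
  have h3 := (hw _ h1 h2).1 (b - cc a n l * n) (by omega)
  rw [Finsupp.sub_apply] at h3 ⊢
  unfold g0
  rw [shap]
  rw [← h3]
  congr 1
  rw [Finsupp.single_apply, Finsupp.single_apply]
  refine if_congr ?_ rfl rfl
  constructor <;> intro h <;> omega

theorem g0_L (hn : 0 < n)
    (hw : ∀ l, a < l → l ≤ a + n → w l - ee k l ∈ M k l ∧ w l ∈ L k (a + n)) (l : ℤ)
    {C : ℤ} (hC : l ≤ a + C * n) :
    g0 a n w l ∈ L k (a + C * n) := by
  intro b hb
  obtain ⟨h1, h2⟩ := cc_range hn a l
  have h4 := cc_lt hn hC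
  have hn' : (0 : ℤ) < n := by exact_mod_cast hn
  have h5 : (cc a n l + 1) * n ≤ C * n := mul_le_mul_of_nonneg_right h4 hn'.le
  unfold g0
  rw [shap]
  refine (hw _ h1 h2).2 (b - cc a n l * n) ?_
  nlinarith

theorem g0_lt (hn : 0 < n)
    (hw : ∀ l, a < l → l ≤ a + n → w l - ee k l ∈ M k l ∧ w l ∈ L k (a + n)) {l b : ℤ}
    (hb : b < l) : g0 a n w l b = 0 := by
  have h := g0_M hn hw l b hb.le
  rw [Finsupp.sub_apply, Finsupp.single_eq_of_ne (by omega), sub_zero] at h
  exact h

theorem g0_self (hn : 0 < n)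
    (hw : ∀ l, a < l → l ≤ a + n → w l - ee k l ∈ M k l ∧ w l ∈ L k (a + n)) (l : ℤ) :
    g0 a n w l l = 1 := by
  have h := g0_M hn hw l l le_rfl
  rw [Finsupp.sub_apply, Finsupp.single_eq_same] at h
  exact sub_eq_zero.mp h

/-- the linear map with values `g0` -/
noncomputable def gg (a : ℤ) (n : ℕ) (w : ℤ → E k) : E k →ₗ[k] E k :=
  Finsupp.linearCombination k (g0 a n w)

theorem gg_ee (l : ℤ) : gg a n w (ee k l) = g0 a n w l := by
  simp [gg, ee]

theorem gg_comm (hn : 0 < n) (v : E k) : gg a n w (sh k n v) = sh k n (gg a n w v) := by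
  have h : (gg a n w).comp (sh k n : E k →ₗ[k] E k) = (sh k n : E k →ₗ[k] E k).comp (gg a n w) := by
    refine Finsupp.lhom_ext' fun l => LinearMap.ext_ring ?_
    change gg a n w (sh k n (ee k l)) = sh k n (gg a n w (ee k l))
    have h1 : sh k (n : ℤ) (ee k l) = ee k (l + n) := by
      refine Finsupp.ext fun b => ?_
      rw [shap, Finsupp.single_apply, Finsupp.single_apply]
      refine if_congr ?_ rfl rfl
      constructor <;> intro h <;> omega
    rw [h1, gg_ee, gg_ee, g0_add hn]
  exact LinearMap.congr_fun h v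

theorem gg_sub (hn : 0 < n)
    (hw : ∀ l, a < l → l ≤ a + n → w l - ee k l ∈ M k l ∧ w l ∈ L k (a + n)) {i : ℤ} {v : E k}
    (hv : ∀ b, b < i → v b = 0) : (gg a n w v) i = v i := by
  have h1 : gg a n w v = ∑ b ∈ v.support, v b • g0 a n w b := by
    unfold gg
    rw [Finsupp.linearCombination_apply]
    rfl
  rw [h1, Finsupp.finsetSum_apply]
  by_cases hi : i ∈ v.support
  · rw [Finset.sum_eq_single_of_mem i hi]
    · rw [Finsupp.smul_apply, g0_self hn hw, smul_eq_mul, mul_one]
    · intro b hb hbi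
      rw [Finsupp.smul_apply, g0_lt hn hw, smul_zero]
      rcases lt_trichotomy b i with h | h | h
      · exact absurd (hv b h) (Finsupp.mem_support_iff.mp hb)
      · exact absurd h hbi
      · exact h
  · rw [Finset.sum_eq_zero, Finsupp.notMem_support_iff.mp hi]
    intro b hb
    rw [Finsupp.smul_apply, g0_lt hn hw, smul_zero]
    rcases lt_trichotomy b i with h | h | h
    · exact absurd (hv b h) (Finsupp.mem_support_iff.mp hb)
    · exact absurd (h ▸ hb) hi
    · exact h

theorem gg_inj (hn : 0 < n)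
    (hw : ∀ l, a < l → l ≤ a + n → w l - ee k l ∈ M k l ∧ w l ∈ L k (a + n)) :
    Function.Injective (gg a n w) := by
  rw [injective_iff_map_eq_zero]
  intro v hv
  by_contra hne
  have hs : v.support.Nonempty := Finsupp.support_nonempty_iff.mpr hne
  have h1 := v.support.min'_mem hs
  have h2 := gg_sub hn hw (i := v.support.min' hs) (v := v) (by
    intro b hb
    by_contra hcon
    have := v.support.min'_le b (Finsupp.mem_support_iff.mpr hcon)
    omega)
  rw [hv] at h2
  exact Finsupp.mem_support_iff.mp h1 h2.symm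

theorem gg_surj_aux (hn : 0 < n)
    (hw : ∀ l, a < l → l ≤ a + n → w l - ee k l ∈ M k l ∧ w l ∈ L k (a + n)) (C : ℤ) (d : ℕ) :
    ∀ (i : ℤ) (v : E k), a + C * n - i ≤ d → v ∈ L k (a + C * n) → v ∈ M k i →
      v ∈ LinearMap.range (gg a n w) := by
  induction d with
  | zero =>
    intro i v hd hL hM
    have hv : v = 0 := by
      refine Finsupp.ext fun b => ?_
      rcases le_or_gt b i with h | h
      · exact hM b h
      · exact hL b (by push_cast at hd; omega)
    rw [hv]
    exact Submodule.zero_mem _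
  | succ d ih =>
    intro i v hd hL hM
    push_cast at hd
    by_cases hi : a + C * n ≤ i
    · exact ih i v (by omega) hL hM
    have hi' : i + 1 ≤ a + C * n := by omega
    have h1 : v = (v - v (i + 1) • g0 a n w (i + 1)) + v (i + 1) • g0 a n w (i + 1) := by abel
    rw [h1]
    refine Submodule.add_mem _ (ih (i + 1) _ (by omega) ?_ ?_) ?_
    · exact Submodule.sub_mem _ hL (Submodule.smul_mem _ _ (g0_L hn hw _ hi'))
    · intro b hb
      rw [Finsupp.sub_apply, Finsupp.smul_apply]
      rcases hb.lt_or_eq with h | h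
      · rw [g0_lt hn hw h, hM b (by omega), smul_zero, sub_zero]
      · rw [h, g0_self hn hw, smul_eq_mul, mul_one, sub_self]
    · refine Submodule.smul_mem _ _ ?_
      rw [← gg_ee]
      exact LinearMap.mem_range_self _ _

theorem gg_surj (hn : 0 < n)
    (hw : ∀ l, a < l → l ≤ a + n → w l - ee k l ∈ M k l ∧ w l ∈ L k (a + n)) :
    Function.Surjective (gg a n w) := by
  intro v
  obtain ⟨m, hm⟩ := v.support.bddAbove
  obtain ⟨i, hi⟩ := v.support.bddBelow
  have hn' : (1 : ℤ) ≤ n := by exact_mod_cast hn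
  have h1 : m ≤ a + |m - a| * n := by
    have h2 : |m - a| * 1 ≤ |m - a| * n := mul_le_mul_of_nonneg_left hn' (abs_nonneg _)
    have h3 := le_abs_self (m - a)
    linarith
  have h := gg_surj_aux hn hw (|m - a|) (a + |m - a| * n - (i - 1)).toNat (i - 1) v
    (Int.self_le_toNat _) (by
      intro b hb
      by_contra hcon
      have := hm (Finset.mem_coe.mpr (Finsupp.mem_support_iff.mpr hcon))
      omega) (by
      intro b hb
      by_contra hcon
      have := hi (Finset.mem_coe.mpr (Finsupp.mem_support_iff.mpr hcon))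
      omega)
  exact h

end UMkAux

open UMkAux in
theorem exists_U_of_values (hn : 0 < n) (a : ℤ) (w : ℤ → E k)
    (hw : ∀ l, a < l → l ≤ a + n → w l - ee k l ∈ M k l ∧ w l ∈ L k (a + n)) :
    ∃ g ∈ U k n, ∀ l, a < l → l ≤ a + n → g (ee k l) = w l := by
  refine ⟨LinearEquiv.ofBijective (gg a n w) ⟨gg_inj hn hw, gg_surj hn hw⟩, mem_U_of ?_ ?_, ?_⟩
  · intro v
    exact gg_comm hn v
  · intro l
    change gg a n w (ee k l) - ee k l ∈ M k l
    rw [gg_ee]
    exact g0_M hn hw l
  · intro l h1 h2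
    change gg a n w (ee k l) = w l
    rw [gg_ee]
    exact g0_base w h1 h2

end Vale.P067
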