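import Vale.Agent.Lib.P067.Defs

/-!
# P067: partial flags opposite to `M` with fixed members outside `T` (shared by parts B and C)
-/

namespace Vale.P067

open scoped Classical

variable (k : Type*) [Field k]

/-- partial flags `(i, W)`, `i ∈ T ⊆ Ioo a b`, opposite to `M` and compatible with the fixed members
`L i`, `i ∈ [a,b] ∖ T` -/
def Fl (a b : ℤ) (T : Finset ℤ) : Set (Finset (ℤ × Submodule k (E k))) :=
  {σ | (∀ v ∈ σ, v.1 ∈ T ∧ IsCompl v.2 (M k v.1) ∧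
      ∀ i, a ≤ i → i ≤ b → i ∉ T → (i ≤ v.1 → L k i ≤ v.2) ∧ (v.1 ≤ i → v.2 ≤ L k i)) ∧
    ∀ v ∈ σ, ∀ w ∈ σ, v.1 ≤ w.1 → v.2 ≤ w.2}

/-- input from part B: all the complexes of partial opposite flags in a window of length `n` fill in the
degrees `j ≤ |T| - 1` -/
def BInput (n : ℕ) : Prop :=
  ∀ j0 : ℤ, ∀ T : Finset ℤ, (∀ i ∈ T, j0 < i ∧ i < j0 + n) → ∀ j : ℕ, j + 1 ≤ T.card →
    Fills (Fl k j0 (j0 + n) T) j

end Vale.P067
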