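import Vale.Agent.Lib.P067.Chain

/-!
# P067: the abstract Morse step (shared by parts C and D2)
-/

namespace Vale.P067

open scoped Classical

variable {V : Type*}

/-- the hypotheses of one Morse step: `A` is the old complex, `N` the set of the new faces, `I σ ⊆ σ` the
descent face of a new face `σ` -/
structure MorseData (A N : Set (Finset V)) (I : Finset V → Finset V) : Prop where
  disj : Disjoint A N
  sub : ∀ σ ∈ N, I σ ⊆ σ
  stab : ∀ σ ∈ N, ∀ σ', I σ ⊆ σ' → σ' ⊆ σ → σ' ∈ N ∧ I σ' = I σ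
  down : ∀ σ ∈ N, ∀ v ∈ I σ, σ.erase v ∈ A
  erase : ∀ σ ∈ A, ∀ v ∈ σ, σ.erase v ∈ A

/-- the local complex of the new faces with descent face `I0` -/
def Loc (N : Set (Finset V)) (I : Finset V → Finset V) (I0 : Finset V) : Set (Finset V) :=
  {τ | Disjoint τ I0 ∧ τ ∪ I0 ∈ N ∧ I (τ ∪ I0) = I0}

private theorem joinCh_single (I0 τ : Finset V) (c : ZMod 2) :
    joinCh I0 (Finsupp.single τ c) = Finsupp.single (τ ∪ I0) c := by
  unfold joinCh
  exact Finsupp.mapDomain_single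

private theorem joinCh_support (I0 : Finset V) (u : Ch V) {σ : Finset V}
    (hσ : σ ∈ (joinCh I0 u).support) : ∃ τ ∈ u.support, σ = τ ∪ I0 := by
  unfold joinCh at hσ
  have h1 := Finsupp.mapDomain_support hσ
  obtain ⟨τ, h2, h3⟩ := Finset.mem_image.1 h1
  exact ⟨τ, h2, h3.symm⟩

/-- Morse step. Proof: group the part of `z` on `N` by the descent face `I0 = I σ`:
`z_{I0} = joinCh I0 a`, `a` on `Loc N I I0`. Coefficient of `bd z` at `τ' ∪ I0 ∈ N` (`τ'` = `τ` minus a
vertex; the face `τ' ∪ I0` has descent face `I0` by `stab`): only faces with the same descent face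
contribute (a face `ρ = insert w (τ' ∪ I0)` in `N` with `τ' ∪ I0 ∈ N`: `w ∉ I ρ` by `down` and `disj`, so
`I ρ = I (τ' ∪ I0) = I0` by `stab`; faces in `A` do not contribute by `erase` and `disj`). So `bd a = 0`;
fill `a = bd b` with `b` on `Loc N I I0`; take `u = ∑_{I0} joinCh I0 b`. -/
theorem MS (A N : Set (Finset V)) (I : Finset V → Finset V) (h : MorseData A N I) (j : ℕ)
    (hloc : ∀ σ ∈ N, (I σ).card ≤ j → Fills (Loc N I (I σ)) (j - (I σ).card))
    (z : Ch V) (hz : On (A ∪ N) j z) (hbd : ∀ σ ∈ (bd z).support, σ ∈ A) :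
    ∃ u : Ch V, On (A ∪ N) (j + 1) u ∧ On A j (z + bd u) := by
  -- `P K` = chains supported on `K`
  set P : Set (Finset V) → Submodule (ZMod 2) (Ch V) := fun K =>
    Finsupp.supported (ZMod 2) (ZMod 2) K with hP
  have hPmem : ∀ (K : Set (Finset V)) (y : Ch V), y ∈ P K ↔ ∀ σ ∈ y.support, σ ∈ K := by
    intro K y
    rw [hP]
    simp only [Finsupp.mem_supported]
    rfl
  have hPs : ∀ (K : Set (Finset V)) (σ : Finset V) (c : ZMod 2), σ ∈ K →
      Finsupp.single σ c ∈ P K := by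
    intro K σ c hσ
    exact Finsupp.single_mem_supported _ _ hσ
  have hPA : ∀ y ∈ P A, bd y ∈ P A := by
    intro y hy
    rw [bd_apply_sum]
    refine Submodule.sum_mem _ fun σ hσ => Submodule.sum_mem _ fun v hv => ?_
    exact hPs _ _ _ (h.erase σ ((hPmem A y).1 hy σ hσ) v hv)
  set zA : Ch V := z.filter (fun σ => σ ∈ A) with hzA
  set zN : Ch V := z.filter (fun σ => σ ∉ A) with hzN
  have hsplit : zA + zN = z := Finsupp.filter_add_filter_not z _
  have hzAon : On A j zA := by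
    intro σ hσ
    rw [hzA, Finsupp.support_filter, Finset.mem_filter] at hσ
    exact ⟨hσ.2, (hz σ hσ.1).2⟩
  have hzNs : ∀ σ ∈ zN.support, σ ∈ N ∧ σ.card = j := by
    intro σ hσ
    rw [hzN, Finsupp.support_filter, Finset.mem_filter] at hσ
    obtain ⟨h1, h2⟩ := hz σ hσ.1
    exact ⟨h1.resolve_left hσ.2, h2⟩
  set T : Finset (Finset V) := zN.support.image I with hT
  set zI : Finset V → Ch V := fun I0 => zN.filter (fun σ => I σ = I0) with hzI
  have hzIs : ∀ I0, ∀ σ ∈ (zI I0).support, σ ∈ N ∧ σ.card = j ∧ I σ = I0 := by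
    intro I0 σ hσ
    rw [hzI] at hσ
    simp only [Finsupp.support_filter, Finset.mem_filter] at hσ
    exact ⟨(hzNs σ hσ.1).1, (hzNs σ hσ.1).2, hσ.2⟩
  have hsum : ∑ I0 ∈ T, zI I0 = zN := by
    ext σ
    rw [Finsupp.finsetSum_apply]
    simp only [hzI, Finsupp.filter_apply]
    rw [Finset.sum_ite_eq]
    by_cases hσ : σ ∈ zN.support
    · rw [if_pos (Finset.mem_image_of_mem I hσ)]
    · rw [Finsupp.notMem_support_iff] at hσ
      rw [hσ, ite_self]
  set a : Finset V → Ch V := fun I0 => (zI I0).mapDomain (fun σ => σ \ I0) with ha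
  have has : ∀ I0, ∀ τ ∈ (a I0).support, Disjoint τ I0 ∧ τ ∪ I0 ∈ N ∧ I (τ ∪ I0) = I0 ∧
      (τ ∪ I0).card = j := by
    intro I0 τ hτ
    have h1 := Finsupp.mapDomain_support hτ
    obtain ⟨σ, h2, h3⟩ := Finset.mem_image.1 h1
    obtain ⟨h4, h5, h6⟩ := hzIs I0 σ h2
    have h7 : I0 ⊆ σ := by
      rw [← h6]
      exact h.sub σ h4
    have h8 : τ ∪ I0 = σ := by
      rw [← h3]
      exact Finset.sdiff_union_of_subset h7
    refine ⟨?_, ?_, ?_, ?_⟩
    · rw [← h3]
      exact Finset.sdiff_disjoint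
    · rw [h8]
      exact h4
    · rw [h8]
      exact h6
    · rw [h8]
      exact h5
  have hja : ∀ I0, joinCh I0 (a I0) = zI I0 := by
    intro I0
    unfold joinCh
    change Finsupp.mapDomain (fun τ => τ ∪ I0) (Finsupp.mapDomain (fun σ => σ \ I0) (zI I0)) = zI I0
    rw [← Finsupp.mapDomain_comp]
    conv_rhs => rw [← Finsupp.mapDomain_id (v := zI I0)]
    apply Finsupp.mapDomain_congr
    intro σ hσ
    obtain ⟨h4, h5, h6⟩ := hzIs I0 σ hσ
    have h7 : I0 ⊆ σ := by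
      rw [← h6]
      exact h.sub σ h4
    exact Finset.sdiff_union_of_subset h7
  -- the remainder of a join is on `A`
  have hR : ∀ (I0 : Finset V) (y : Ch V), (∀ τ ∈ y.support, τ ∪ I0 ∈ N ∧ I (τ ∪ I0) = I0) →
      (∑ τ ∈ y.support, ∑ v ∈ I0, Finsupp.single ((τ ∪ I0).erase v) (1 : ZMod 2)) ∈ P A := by
    intro I0 y hy
    refine Submodule.sum_mem _ fun τ hτ => Submodule.sum_mem _ fun v hv => ?_
    refine hPs _ _ _ (h.down _ (hy τ hτ).1 v ?_)
    rw [(hy τ hτ).2]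
    exact hv
  -- `joinCh I0 (bd a)` is on the new faces with descent face `I0`
  have hw : ∀ I0, joinCh I0 (bd (a I0)) ∈ P {ρ | ρ ∈ N ∧ I ρ = I0} := by
    intro I0
    rw [bd_apply_sum, map_sum]
    refine Submodule.sum_mem _ fun τ hτ => ?_
    rw [map_sum]
    refine Submodule.sum_mem _ fun v hv => ?_
    rw [joinCh_single]
    refine hPs _ _ _ ?_
    obtain ⟨h1, h2, h3, h4⟩ := has I0 τ hτ
    have h5 := h.stab (τ ∪ I0) h2 (τ.erase v ∪ I0) (by rw [h3]; exact Finset.subset_union_right)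
      (Finset.union_subset_union (Finset.erase_subset _ _) le_rfl)
    exact ⟨h5.1, h5.2.trans h3⟩
  have htot : ∑ I0 ∈ T, joinCh I0 (bd (a I0)) ∈ P A := by
    have h1 : ∀ I0, joinCh I0 (bd (a I0)) = bd (zI I0) -
        ∑ τ ∈ (a I0).support, ∑ v ∈ I0, Finsupp.single ((τ ∪ I0).erase v) (1 : ZMod 2) := by
      intro I0
      rw [← hja I0, bd_joinCh I0 (a I0) (fun τ hτ => (has I0 τ hτ).1), add_sub_cancel_right]
    rw [Finset.sum_congr rfl fun I0 _ => h1 I0, Finset.sum_sub_distrib, ← map_sum, hsum]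
    refine Submodule.sub_mem _ ?_ ?_
    · have h2 : bd zN = bd z - bd zA := by
        rw [← hsplit, map_add, add_sub_cancel_left]
      rw [h2]
      refine Submodule.sub_mem _ ((hPmem _ _).2 hbd) (hPA _ ((hPmem _ _).2 ?_))
      exact fun σ hσ => (hzAon σ hσ).1
    · exact Submodule.sum_mem _ fun I0 _ =>
        hR I0 (a I0) fun τ hτ => ⟨(has I0 τ hτ).2.1, (has I0 τ hτ).2.2.1⟩
  have hzero : ∀ I0 ∈ T, joinCh I0 (bd (a I0)) = 0 := by
    intro I0 hI0
    ext ρ
    rw [Finsupp.zero_apply]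
    by_cases hρ : ρ ∈ N ∧ I ρ = I0
    · have h1 : (∑ I1 ∈ T, joinCh I1 (bd (a I1))) ρ = joinCh I0 (bd (a I0)) ρ := by
        rw [Finsupp.finsetSum_apply]
        refine Finset.sum_eq_single_of_mem I0 hI0 fun I1 _ hne => ?_
        by_contra hcon
        have h2 := (hPmem _ _).1 (hw I1) ρ (Finsupp.mem_support_iff.2 hcon)
        exact hne (h2.2.symm.trans hρ.2)
      rw [← h1]
      by_contra hcon
      have h2 := (hPmem _ _).1 htot ρ (Finsupp.mem_support_iff.2 hcon)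
      exact Set.disjoint_left.1 h.disj h2 hρ.1
    · by_contra hcon
      exact hρ ((hPmem _ _).1 (hw I0) ρ (Finsupp.mem_support_iff.2 hcon))
  have hbda : ∀ I0 ∈ T, bd (a I0) = 0 := by
    intro I0 hI0
    refine joinCh_injective I0 _ ?_ (hzero I0 hI0)
    intro τ' hτ'
    have h1 : bd (a I0) ∈ P {τ | Disjoint τ I0} := by
      rw [bd_apply_sum]
      refine Submodule.sum_mem _ fun τ hτ => Submodule.sum_mem _ fun v hv => ?_
      refine hPs _ _ _ ?_
      exact Finset.disjoint_of_subset_left (Finset.erase_subset _ _) (has I0 τ hτ).1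
    exact (hPmem _ _).1 h1 τ' hτ'
  -- cardinality of the descent faces
  have hcard : ∀ I0 ∈ T, ∃ σ ∈ N, I σ = I0 ∧ I0.card ≤ j := by
    intro I0 hI0
    obtain ⟨σ, h1, h2⟩ := Finset.mem_image.1 hI0
    obtain ⟨h3, h4⟩ := hzNs σ h1
    refine ⟨σ, h3, h2, ?_⟩
    rw [← h4, ← h2]
    exact Finset.card_le_card (h.sub σ h3)
  have hfill : ∀ I0 ∈ T, ∃ b : Ch V, On (Loc N I I0) (j - I0.card + 1) b ∧ bd b = a I0 := by
    intro I0 hI0
    obtain ⟨σ, h1, h2, h3⟩ := hcard I0 hI0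
    have h4 := hloc σ h1 (by rw [h2]; exact h3)
    rw [h2] at h4
    refine h4 (a I0) ?_ (hbda I0 hI0)
    intro τ hτ
    obtain ⟨h5, h6, h7, h8⟩ := has I0 τ hτ
    refine ⟨⟨h5, h6, h7⟩, ?_⟩
    rw [Finset.card_union_of_disjoint h5] at h8
    omega
  choose! b hb1 hb2 using hfill
  refine ⟨∑ I0 ∈ T, joinCh I0 (b I0), ?_, ?_⟩
  · refine On.sum _ _ fun I0 hI0 => ?_
    intro σ hσ
    obtain ⟨τ, h1, h2⟩ := joinCh_support I0 (b I0) hσ
    obtain ⟨⟨h3, h4, h5⟩, h6⟩ := hb1 I0 hI0 τ h1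
    obtain ⟨-, -, -, h7⟩ := hcard I0 hI0
    refine ⟨Or.inr (h2 ▸ h4), ?_⟩
    rw [h2, Finset.card_union_of_disjoint h3]
    omega
  · have h1 : ∀ I0 ∈ T, bd (joinCh I0 (b I0)) = zI I0 +
        ∑ τ ∈ (b I0).support, ∑ v ∈ I0, Finsupp.single ((τ ∪ I0).erase v) (1 : ZMod 2) := by
      intro I0 hI0
      rw [bd_joinCh I0 (b I0) (fun τ hτ => (hb1 I0 hI0 τ hτ).1.1), hb2 I0 hI0, hja]
    have h2 : z + bd (∑ I0 ∈ T, joinCh I0 (b I0)) = zA +
        ∑ I0 ∈ T, ∑ τ ∈ (b I0).support, ∑ v ∈ I0,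
          Finsupp.single ((τ ∪ I0).erase v) (1 : ZMod 2) := by
      rw [map_sum, Finset.sum_congr rfl h1, Finset.sum_add_distrib, hsum]
      have h3 := ch_add_self zN
      have h4 : ∀ X : Ch V, z + (zN + X) = zA + X := by
        intro X
        have h5 : zA + zN + (zN + X) = zA + (zN + zN) + X := by
          rw [add_assoc, add_assoc, add_assoc]
        rw [hsplit, h3, add_zero] at h5
        exact h5
      exact h4 _
    rw [h2]
    refine On.add hzAon (On.sum _ _ fun I0 hI0 => On.sum _ _ fun τ hτ => On.sum _ _ fun v hv => ?_)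
    obtain ⟨⟨h3, h4, h5⟩, h6⟩ := hb1 I0 hI0 τ hτ
    obtain ⟨-, -, -, h7⟩ := hcard I0 hI0
    have h8 : (τ ∪ I0).erase v ∈ A := h.down _ h4 v (by rw [h5]; exact hv)
    have h9 := On.single h8
    have h10 : ((τ ∪ I0).erase v).card = j := by
      rw [Finset.card_erase_of_mem (Finset.mem_union_right _ hv),
        Finset.card_union_of_disjoint h3]
      omega
    rwa [h10] at h9

end Vale.P067
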